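import Vale.Agent.P032W.H61.Code

/-!
# P032: turns and relabellings of events, classes of states

`Act σ j s` : the state turned `j` times and relabelled by `σ`; `InC r s` : `s` is in the class of the code `r`;
`stat y` : the covering condition of static states on codes.
-/

namespace Vale.Agent.P032.H61

open Vale.Agent.P032.H892

/-- turn and relabelling -/
def Act (σ : Equiv.Perm (Fin 6)) (j : ℕ) (s : StZ) : StZ := prmZ σ (shZ^[j] s)

/-- inverse of the turn -/
def shI (s : StZ) : StZ := (fun k => s.1 (k + 5), fun c => s.2.1 c + 1, fun c => s.2.2 c + 1)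

theorem shZ_shI (s : StZ) : shZ (shI s) = s := by
  refine Prod.ext ?_ (Prod.ext ?_ ?_)
  · funext k
    exact congrArg s.1 ((by decide : ∀ k : Fin 6, k + 1 + 5 = k) k)
  · funext c; show s.2.1 c + 1 - 1 = _; ring
  · funext c; show s.2.2 c + 1 - 1 = _; ring

theorem shI_shZ (s : StZ) : shI (shZ s) = s := by
  refine Prod.ext ?_ (Prod.ext ?_ ?_)
  · funext k
    exact congrArg s.1 ((by decide : ∀ k : Fin 6, k + 5 + 1 = k) k)
  · funext c; show s.2.1 c - 1 + 1 = _; ring
  · funext c; show s.2.2 c - 1 + 1 = _; ring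

theorem iter_shZ_shI (j : ℕ) (s : StZ) : shZ^[j] (shI^[j] s) = s :=
  (Function.LeftInverse.iterate (f := shI) (g := shZ) shZ_shI j) s

theorem prm_prm (σ τ : Equiv.Perm (Fin 6)) (s : StZ) : prmZ σ (prmZ τ s) = prmZ (σ * τ) s := rfl

theorem prm_symm (σ : Equiv.Perm (Fin 6)) (s : StZ) : prmZ σ (prmZ σ.symm s) = s := by
  refine Prod.ext ?_ (Prod.ext ?_ ?_)
  · funext k
    show (σ (σ.symm (s.1 k).1), σ (σ.symm (s.1 k).2)) = s.1 k
    rw [Equiv.apply_symm_apply, Equiv.apply_symm_apply]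
  · funext c
    show s.2.1 (σ.symm.symm (σ.symm c)) = s.2.1 c
    rw [Equiv.symm_symm, Equiv.apply_symm_apply]
  · funext c
    show s.2.2 (σ.symm.symm (σ.symm c)) = s.2.2 c
    rw [Equiv.symm_symm, Equiv.apply_symm_apply]

theorem iter_prm (σ : Equiv.Perm (Fin 6)) (j : ℕ) (s : StZ) :
    shZ^[j] (prmZ σ s) = prmZ σ (shZ^[j] s) := by
  induction j with
  | zero => rfl
  | succ j ih =>
    rw [Function.iterate_succ_apply', Function.iterate_succ_apply', ih]
    rfl

theorem act_act (σ τ : Equiv.Perm (Fin 6)) (i j : ℕ) (s : StZ) :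
    Act σ i (Act τ j s) = Act (σ * τ) (i + j) s := by
  unfold Act
  rw [iter_prm, prm_prm, Function.iterate_add_apply]

/-- the inverse -/
def ActI (σ : Equiv.Perm (Fin 6)) (j : ℕ) (s : StZ) : StZ := shI^[j] (prmZ σ.symm s)

theorem act_actI (σ : Equiv.Perm (Fin 6)) (j : ℕ) (s : StZ) : Act σ j (ActI σ j s) = s := by
  unfold Act ActI
  rw [iter_shZ_shI, prm_symm]

theorem evZ_rotI {s t : StZ} (h : EvZ s t) : EvZ (shI s) (shI t) := by
  obtain ⟨U, T, z, C, u, rfl, rfl⟩ := h
  refine ⟨U, T, z, C, u - 1, ?_, ?_⟩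
  · have h1 := C.zl_succ (u - 1)
    rw [sub_add_cancel] at h1
    rw [h1, shI_shZ]
  · have h1 := C.zr_succ (u - 1)
    rw [sub_add_cancel] at h1
    rw [h1, shI_shZ]

theorem evZ_rotI_iter {s t : StZ} (h : EvZ s t) (j : ℕ) : EvZ (shI^[j] s) (shI^[j] t) := by
  induction j with
  | zero => exact h
  | succ j ih =>
    rw [Function.iterate_succ_apply', Function.iterate_succ_apply']
    exact evZ_rotI ih

theorem evZ_actI {s t : StZ} (h : EvZ s t) (σ : Equiv.Perm (Fin 6)) (j : ℕ) :
    EvZ (ActI σ j s) (ActI σ j t) := evZ_rotI_iter (h.perm σ.symm) j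

/-- codes of turned and relabelled states -/
theorem cd_act {p j x : ℕ} {σ : Equiv.Perm (Fin 6)} {s : StZ} (h : IsP p σ) (hj : j < 6)
    (hx : x < 2 ^ 108) : Cd (permc p (rotc j x)) (Act σ j s) ↔ Cd x s := by
  unfold Act
  rw [cd_perm h (rotc_lt hj), cd_rot hj hx]

/-- `s` is in the class of the code `r` -/
def InC (r : ℕ) (s : StZ) : Prop := ∃ (σ : Equiv.Perm (Fin 6)) (j : ℕ) (t : StZ), Cd r t ∧ s = Act σ j t

theorem InC.act {r : ℕ} {s : StZ} (h : InC r s) (σ : Equiv.Perm (Fin 6)) (j : ℕ) :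
    InC r (Act σ j s) := by
  obtain ⟨τ, i, t, h1, rfl⟩ := h
  exact ⟨σ * τ, j + i, t, h1, act_act _ _ _ _ _⟩

theorem InC.of_cd {p j r y : ℕ} {σ : Equiv.Perm (Fin 6)} {s : StZ} (h : IsP p σ) (hj : j < 6)
    (hr : r < 2 ^ 108) (hy : y = permc p (rotc j r)) (hs : Cd y s) : InC r s := by
  refine ⟨σ, j, ActI σ j s, ?_, (act_actI σ j s).symm⟩
  rw [← cd_act h hj hr, act_actI, ← hy]
  exact hs

/-! ### the covering condition -/

/-- bits `0..5` of the six blocks of 18 bits -/
def MI : ℕ := 77990519985202289541734203455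

/-- covered rays of all colours -/
def cvr (x : ℕ) : ℕ :=
  let NF := Nat.xor MI (Nat.lor (Nat.land x MI) (Nat.land (rotc 3 (Nat.land (Nat.shiftRight x 6) MI)) MI))
  let c1 := Nat.land (Nat.land (Nat.shiftRight x 12) MI) NF
  let c2 := Nat.land (rotc 5 c1) NF
  let c3 := Nat.land (rotc 5 c2) NF
  Nat.lor c1 (Nat.lor c2 c3)

/-- every ray is covered -/
def stat (x : ℕ) : Bool :=
  let v := cvr x
  Nat.beq (Nat.land (Nat.lor v (Nat.lor (Nat.shiftRight v 18) (Nat.lor (Nat.shiftRight v 36)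
    (Nat.lor (Nat.shiftRight v 54) (Nat.lor (Nat.shiftRight v 72) (Nat.shiftRight v 90)))))) 63) 63

theorem mi_bit : ∀ c < 6, ∀ i < 6, MI.testBit (18 * c + i) = true := by decide +kernel

theorem fin_blocked : ∀ p k m : Fin 6, ∀ d : Fin 4, (m - p).val < d.val → (k - p).val ≤ (m - p).val →
    ¬ okIn k (p, d) ∧ ¬ okOut (k + 3) (p, d) := by decide +kernel

theorem m6_mod (n : ℤ) (k : Fin 6) : n % 6 = (k.val : ℤ) ↔ m6 n = k := by
  constructor
  · intro h; exact m6_of (by have := k.isLt; omega)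
  · rintro rfl; exact (m6_val n).symm

theorem cvr_bit {x : ℕ} {c i : ℕ} (hc : c < 6) (hi : i < 6) :
    let nf : ℕ → Bool := fun r => !(x.testBit (18 * c + r % 6)) && !(x.testBit (18 * c + 6 + (r + 3) % 6))
    let pp : ℕ → Bool := fun r => x.testBit (18 * c + 12 + r % 6)
    (cvr x).testBit (18 * c + i) = ((pp i && nf i) || ((pp (i + 5) && nf (i + 5) && nf i) ||
      (pp (i + 4) && nf (i + 4) && nf (i + 5) && nf i))) := by
  intro nf pp
  set NF := Nat.xor MI (Nat.lor (Nat.land x MI) (Nat.land (rotc 3 (Nat.land (Nat.shiftRight x 6) MI)) MI))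
    with hNF
  set c1 := Nat.land (Nat.land (Nat.shiftRight x 12) MI) NF with hc1
  set c2 := Nat.land (rotc 5 c1) NF with hc2
  set c3 := Nat.land (rotc 5 c2) NF with hc3
  have hb : 3 * c < 18 := by omega
  have e6 : ∀ r, 6 * (3 * c) + r = 18 * c + r := fun r => by ring
  have hnf : ∀ r < 6, NF.testBit (18 * c + r) = nf r := by
    intro r hr
    have h1 : NF = MI ^^^ ((x &&& MI) ||| ((rotc 3 ((x >>> 6) &&& MI)) &&& MI)) := rfl
    have h2 := rotc_bit (j := 3) (x := (x >>> 6) &&& MI) (b := 3 * c) (i := r) (by norm_num) hb hr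
    rw [e6, e6] at h2
    have h3 : (r + 3) % 6 < 6 := Nat.mod_lt _ (by norm_num)
    have h4 : r % 6 = r := Nat.mod_eq_of_lt hr
    have h5 : 6 + (18 * c + (r + 3) % 6) = 18 * c + 6 + (r + 3) % 6 := by ring
    rw [h1, Nat.testBit_xor, Nat.testBit_or, Nat.testBit_and, Nat.testBit_and, h2, Nat.testBit_and,
      Nat.testBit_shiftRight, mi_bit c hc r hr, mi_bit c hc _ h3, h5]
    show _ = (!(x.testBit (18 * c + r % 6)) && !(x.testBit (18 * c + 6 + (r + 3) % 6)))
    rw [h4]
    cases x.testBit (18 * c + r) <;> cases x.testBit (18 * c + 6 + (r + 3) % 6) <;> rfl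
  have hp : ∀ r < 6, c1.testBit (18 * c + r) = (pp r && nf r) := by
    intro r hr
    have h1 : c1 = ((x >>> 12) &&& MI) &&& NF := rfl
    have h4 : r % 6 = r := Nat.mod_eq_of_lt hr
    have h5 : 12 + (18 * c + r) = 18 * c + 12 + r := by ring
    rw [h1, Nat.testBit_and, Nat.testBit_and, Nat.testBit_shiftRight, mi_bit c hc r hr, hnf r hr, h5]
    show _ = (x.testBit (18 * c + 12 + r % 6) && nf r)
    rw [h4, Bool.and_true]
  have hq : ∀ r < 6, c2.testBit (18 * c + r) = (c1.testBit (18 * c + (r + 5) % 6) && nf r) := by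
    intro r hr
    have h1 : c2 = (rotc 5 c1) &&& NF := rfl
    have h2 := rotc_bit (j := 5) (x := c1) (b := 3 * c) (i := r) (by norm_num) hb hr
    rw [e6, e6] at h2
    rw [h1, Nat.testBit_and, h2, hnf r hr]
  have hr3 : ∀ r < 6, c3.testBit (18 * c + r) = (c2.testBit (18 * c + (r + 5) % 6) && nf r) := by
    intro r hr
    have h1 : c3 = (rotc 5 c2) &&& NF := rfl
    have h2 := rotc_bit (j := 5) (x := c2) (b := 3 * c) (i := r) (by norm_num) hb hr
    rw [e6, e6] at h2
    rw [h1, Nat.testBit_and, h2, hnf r hr]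
  have m1 : (i + 5) % 6 < 6 := Nat.mod_lt _ (by norm_num)
  have m2 : ((i + 5) % 6 + 5) % 6 < 6 := Nat.mod_lt _ (by norm_num)
  have hmod : ∀ r, nf (r % 6) = nf r := by
    intro r
    show (!(x.testBit (18 * c + r % 6 % 6)) && !(x.testBit (18 * c + 6 + (r % 6 + 3) % 6))) =
      (!(x.testBit (18 * c + r % 6)) && !(x.testBit (18 * c + 6 + (r + 3) % 6)))
    have e1 : r % 6 % 6 = r % 6 := by omega
    have e2 : (r % 6 + 3) % 6 = (r + 3) % 6 := by omega
    rw [e1, e2]
  have hmodp : ∀ r, pp (r % 6) = pp r := by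
    intro r
    show x.testBit (18 * c + 12 + r % 6 % 6) = x.testBit (18 * c + 12 + r % 6)
    have e1 : r % 6 % 6 = r % 6 := by omega
    rw [e1]
  have e4 : ((i + 5) % 6 + 5) % 6 = (i + 4) % 6 := by omega
  have h : cvr x = c1 ||| (c2 ||| c3) := rfl
  rw [h, Nat.testBit_or, Nat.testBit_or, hp i hi, hq i hi, hp _ m1, hr3 i hi, hq _ m1, hp _ m2, e4,
    hmod, hmodp, hmod, hmodp]

theorem stat_of {x : ℕ} {s : StZ} (hs : Stat (toSt6 s)) (hx : Cd x s) : stat x = true := by
  have key : ∀ m : Fin 6, ∃ c : Fin 6, (cvr x).testBit (18 * c.val + m.val) = true := by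
    intro m
    obtain ⟨c, hc⟩ := hs.ray m
    refine ⟨c, ?_⟩
    have hcv := cvr_bit (x := x) c.isLt m.isLt
    simp only at hcv
    rw [hcv]
    -- the hull of `c`
    set h := (toSt6 s).2 c with hh
    have hp1 : h.1 = m6 (s.2.1 c) := rfl
    have hc' : (m - h.1).val < h.2.val := hc
    have hd := h.2.isLt
    have hpp : ∀ r : ℕ, (m6 (s.2.1 c)).val = r % 6 → x.testBit (18 * c.val + 12 + r % 6) = true := by
      intro r hr
      have h1 := (hx.2 c ⟨r % 6, Nat.mod_lt _ (by norm_num)⟩).2.2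
      refine h1.2 ?_
      rw [m6_mod]
      exact Fin.ext hr
    -- positions from the end to the ray are not occupied
    have hblk : ∀ k : Fin 6, (k - h.1).val ≤ (m - h.1).val →
        x.testBit (18 * c.val + k.val) = false ∧ x.testBit (18 * c.val + 6 + (k.val + 3) % 6) = false := by
      intro k hk
      obtain ⟨f1, f2⟩ := fin_blocked h.1 k m h.2 hc' hk
      constructor
      · by_contra hcon
        rw [Bool.not_eq_false] at hcon
        have h1 := (hx.2 c k).1.1 hcon
        have h2 := hs.win_in k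
        have h3 : ((toSt6 s).1 k).1 = c := h1
        rw [h3] at h2
        exact f1 h2
      · by_contra hcon
        rw [Bool.not_eq_false] at hcon
        have h0 : (k + 3).val = (k.val + 3) % 6 := by rw [Fin.val_add]; rfl
        rw [← h0] at hcon
        have h1 := (hx.2 c (k + 3)).2.1.1 hcon
        have h2 := hs.win_out (k + 3)
        have h3 : ((toSt6 s).1 (k + 3)).2 = c := h1
        rw [h3] at h2
        exact f2 h2
    have hnf : ∀ r : ℕ, (⟨r % 6, Nat.mod_lt _ (by norm_num)⟩ - h.1 : Fin 6).val ≤ (m - h.1).val →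
        (!(x.testBit (18 * c.val + r % 6)) && !(x.testBit (18 * c.val + 6 + (r + 3) % 6))) = true := by
      intro r hr
      obtain ⟨a1, a2⟩ := hblk ⟨r % 6, Nat.mod_lt _ (by norm_num)⟩ hr
      simp only at a1 a2
      have e1 : (r % 6 + 3) % 6 = (r + 3) % 6 := by omega
      rw [e1] at a2
      rw [a1, a2]; rfl
    have hm := m.isLt
    have hml := h.1.isLt
    have hsub : (m - h.1).val = (6 - h.1.val + m.val) % 6 := by rw [Fin.sub_def]
    have hge : ∀ r : ℕ, (⟨r % 6, Nat.mod_lt _ (by norm_num)⟩ - h.1 : Fin 6).val =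
        (6 - h.1.val + r % 6) % 6 := fun r => by rw [Fin.sub_def]
    have hpv : (m6 (s.2.1 c)).val = h.1.val := rfl
    have h3 : (m - h.1).val = 0 ∨ (m - h.1).val = 1 ∨ (m - h.1).val = 2 := by omega
    rcases h3 with h3 | h3 | h3
    · have hP := hpp m.val (by omega)
      have hN := hnf m.val (by rw [hge]; omega)
      rw [hP, hN]; simp
    · have hP := hpp (m.val + 5) (by omega)
      have hN := hnf m.val (by rw [hge]; omega)
      have hN1 := hnf (m.val + 5) (by rw [hge]; omega)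
      rw [hP, hN, hN1]
      simp
    · have hP := hpp (m.val + 4) (by omega)
      have hN := hnf m.val (by rw [hge]; omega)
      have hN1 := hnf (m.val + 5) (by rw [hge]; omega)
      have hN2 := hnf (m.val + 4) (by rw [hge]; omega)
      rw [hP, hN, hN1, hN2]
      simp
  show Nat.beq _ 63 = true
  rw [Nat.beq_eq]
  set v := cvr x with hv
  have e : Nat.land (Nat.lor v (Nat.lor (Nat.shiftRight v 18) (Nat.lor (Nat.shiftRight v 36)
    (Nat.lor (Nat.shiftRight v 54) (Nat.lor (Nat.shiftRight v 72) (Nat.shiftRight v 90)))))) 63 =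
    (v ||| (v >>> 18 ||| (v >>> 36 ||| (v >>> 54 ||| (v >>> 72 ||| v >>> 90))))) &&& (2 ^ 6 - 1) := rfl
  rw [e]
  refine Nat.eq_of_testBit_eq fun i => ?_
  have e63 : (63 : ℕ) = 2 ^ 6 - 1 := by norm_num
  rw [e63, Nat.testBit_and, Nat.testBit_two_pow_sub_one]
  by_cases hi : i < 6
  · obtain ⟨c, hc⟩ := key ⟨i, hi⟩
    simp only at hc
    have : (v ||| (v >>> 18 ||| (v >>> 36 ||| (v >>> 54 ||| (v >>> 72 ||| v >>> 90))))).testBit i = true := by
      simp only [Nat.testBit_or, Nat.testBit_shiftRight, Bool.or_eq_true]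
      have hc6 := c.isLt
      have h6 : c.val = 0 ∨ c.val = 1 ∨ c.val = 2 ∨ c.val = 3 ∨ c.val = 4 ∨ c.val = 5 := by omega
      rcases h6 with h | h | h | h | h | h <;> rw [h] at hc
      · left; simpa using hc
      · right; left; simpa using hc
      · right; right; left; simpa using hc
      · right; right; right; left; simpa using hc
      · right; right; right; right; left; simpa using hc
      · right; right; right; right; right; simpa using hc
    rw [this]; simp [hi]
  · simp [hi]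

end Vale.Agent.P032.H61
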