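import Vale.Agent.P032W.H61.Rep
import Vale.Agent.P032W.H820.OneTab

/-!
# P032: the tables `rep`, `suc` (in the order of elimination) are the tables of `H820`
-/

namespace Vale.Agent.P032.H61

open Vale.Agent.P032.H892

/-- numbers in the table of `H820` -/
def ordT : Dt ℕ := (.node (nat_lit 114) (.node (nat_lit 56) (.node (nat_lit 27) (.node (nat_lit 13) (.node (nat_lit 6) (.node (nat_lit 2) (.node (nat_lit 0) (.leaf (nat_lit 0)) (.node (nat_lit 1) (.leaf (nat_lit 5)) (.leaf (nat_lit 12)))) (.node (nat_lit 4) (.node (nat_lit 3) (.leaf (nat_lit 10)) (.leaf (nat_lit 30))) (.node (nat_lit 5) (.leaf (nat_lit 120)) (.leaf (nat_lit 20))))) (.node (nat_lit 9) (.node (nat_lit 7) (.leaf (nat_lit 27)) (.node (nat_lit 8) (.leaf (nat_lit 113)) (.leaf (nat_lit 96)))) (.node (nat_lit 11) (.node (nat_lit 10) (.leaf (nat_lit 125)) (.leaf (nat_lit 130))) (.node (nat_lit 12) (.leaf (nat_lit 115)) (.leaf (nat_lit 131)))))) (.node (nat_lit 20) (.node (nat_lit 16)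 (.node (nat_lit 14) (.leaf (nat_lit 11)) (.node (nat_lit 15) (.leaf (nat_lit 49)) (.leaf (nat_lit 50)))) (.node (nat_lit 18) (.node (nat_lit 17) (.leaf (nat_lit 76)) (.leaf (nat_lit 38))) (.node (nat_lit 19) (.leaf (nat_lit 81)) (.leaf (nat_lit 82))))) (.node (nat_lit 23) (.node (nat_lit 21) (.leaf (nat_lit 141)) (.node (nat_lit 22) (.leaf (nat_lit 202)) (.leaf (nat_lit 126)))) (.node (nat_lit 25) (.node (nat_lit 24) (.leaf (nat_lit 85)) (.leaf (nat_lit 147))) (.node (nat_lit 26) (.leaf (nat_lit 112)) (.leaf (nat_lit 114))))))) (.node (nat_lit 41) (.node (nat_lit 34) (.node (nat_lit 30) (.node (nat_lit 28) (.leaf (nat_lit 2)) (.node (nat_lit 29) (.leaf (nat_lit 3)) (.leaf (nat_lit 40)))) (.node (nat_lit 32) (.node (nat_lit 31) (.leaf (nat_lit 47)) (.leaf (nat_lit 48))) (.node (nat_lit 33) (.leaf (nat_lit 80)) (.leaf (nat_lit 42))))) (.node (nat_lit 37) (.node (nat_lit 35) (.leaf (nat_lit 28)) (.node (nat_lit 36) (.leaf (nat_lit 60)) (.leaf (nat_lit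 61)))) (.node (nat_lit 39) (.node (nat_lit 38) (.leaf (nat_lit 138)) (.leaf (nat_lit 88))) (.node (nat_lit 40) (.leaf (nat_lit 128)) (.leaf (nat_lit 90)))))) (.node (nat_lit 48) (.node (nat_lit 44) (.node (nat_lit 42) (.leaf (nat_lit 17)) (.node (nat_lit 43) (.leaf (nat_lit 18)) (.leaf (nat_lit 64)))) (.node (nat_lit 46) (.node (nat_lit 45) (.leaf (nat_lit 71)) (.leaf (nat_lit 72))) (.node (nat_lit 47) (.leaf (nat_lit 84)) (.leaf (nat_lit 66))))) (.node (nat_lit 52) (.node (nat_lit 50) (.node (nat_lit 49) (.leaf (nat_lit 123)) (.leaf (nat_lit 124))) (.node (nat_lit 51) (.leaf (nat_lit 148)) (.leaf (nat_lit 149)))) (.node (nat_lit 54) (.node (nat_lit 53) (.leaf (nat_lit 186)) (.leaf (nat_lit 187))) (.node (nat_lit 55) (.leaf (nat_lit 99)) (.leaf (nat_lit 101)))))))) (.node (nat_lit 85) (.node (nat_lit 70) (.node (nat_lit 63) (.node (nat_lit 59) (.node (nat_lit 57) (.leaf (nat_lit 35)) (.node (nat_lit 58) (.leaf (nat_lit 36)) (.leaf (nat_lit 44))))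 (.node (nat_lit 61) (.node (nat_lit 60) (.leaf (nat_lit 78)) (.leaf (nat_lit 79))) (.node (nat_lit 62) (.leaf (nat_lit 87)) (.leaf (nat_lit 68))))) (.node (nat_lit 66) (.node (nat_lit 64) (.leaf (nat_lit 45)) (.node (nat_lit 65) (.leaf (nat_lit 33)) (.leaf (nat_lit 183)))) (.node (nat_lit 68) (.node (nat_lit 67) (.leaf (nat_lit 184)) (.leaf (nat_lit 145))) (.node (nat_lit 69) (.leaf (nat_lit 146)) (.leaf (nat_lit 132)))))) (.node (nat_lit 77) (.node (nat_lit 73) (.node (nat_lit 71) (.leaf (nat_lit 133)) (.node (nat_lit 72) (.leaf (nat_lit 144)) (.leaf (nat_lit 196)))) (.node (nat_lit 75) (.node (nat_lit 74) (.leaf (nat_lit 164)) (.leaf (nat_lit 165))) (.node (nat_lit 76) (.leaf (nat_lit 127)) (.leaf (nat_lit 98))))) (.node (nat_lit 81) (.node (nat_lit 79) (.node (nat_lit 78) (.leaf (nat_lit 107)) (.leaf (nat_lit 62))) (.node (nat_lit 80) (.leaf (nat_lit 63)) (.leaf (nat_lit 104)))) (.node (nat_lit 83) (.node (nat_lit 82) (.leaf (nat_lit 105)) (.leaf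 (nat_lit 199))) (.node (nat_lit 84) (.leaf (nat_lit 37)) (.leaf (nat_lit 51))))))) (.node (nat_lit 99) (.node (nat_lit 92) (.node (nat_lit 88) (.node (nat_lit 86) (.leaf (nat_lit 52)) (.node (nat_lit 87) (.leaf (nat_lit 77)) (.leaf (nat_lit 95)))) (.node (nat_lit 90) (.node (nat_lit 89) (.leaf (nat_lit 162)) (.leaf (nat_lit 163))) (.node (nat_lit 91) (.leaf (nat_lit 139)) (.leaf (nat_lit 142))))) (.node (nat_lit 95) (.node (nat_lit 93) (.leaf (nat_lit 39)) (.node (nat_lit 94) (.leaf (nat_lit 129)) (.leaf (nat_lit 21)))) (.node (nat_lit 97) (.node (nat_lit 96) (.leaf (nat_lit 23)) (.leaf (nat_lit 93))) (.node (nat_lit 98) (.leaf (nat_lit 94)) (.leaf (nat_lit 171)))))) (.node (nat_lit 106) (.node (nat_lit 102) (.node (nat_lit 100) (.leaf (nat_lit 204)) (.node (nat_lit 101) (.leaf (nat_lit 53)) (.leaf (nat_lit 54)))) (.node (nat_lit 104) (.node (nat_lit 103) (.leaf (nat_lit 55)) (.leaf (nat_lit 56))) (.node (nat_lit 105) (.leaf (nat_lit 69)) (.leaf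 (nat_lit 117))))) (.node (nat_lit 110) (.node (nat_lit 108) (.node (nat_lit 107) (.leaf (nat_lit 13)) (.leaf (nat_lit 118))) (.node (nat_lit 109) (.leaf (nat_lit 121)) (.leaf (nat_lit 116)))) (.node (nat_lit 112) (.node (nat_lit 111) (.leaf (nat_lit 91)) (.leaf (nat_lit 29))) (.node (nat_lit 113) (.leaf (nat_lit 122)) (.leaf (nat_lit 43))))))))) (.node (nat_lit 171) (.node (nat_lit 142) (.node (nat_lit 128) (.node (nat_lit 121) (.node (nat_lit 117) (.node (nat_lit 115) (.leaf (nat_lit 6)) (.node (nat_lit 116) (.leaf (nat_lit 215)) (.leaf (nat_lit 216)))) (.node (nat_lit 119) (.node (nat_lit 118) (.leaf (nat_lit 22)) (.leaf (nat_lit 219))) (.node (nat_lit 120) (.leaf (nat_lit 220)) (.leaf (nat_lit 140))))) (.node (nat_lit 124) (.node (nat_lit 122) (.leaf (nat_lit 143)) (.node (nat_lit 123) (.leaf (nat_lit 173)) (.leaf (nat_lit 185)))) (.node (nat_lit 126) (.node (nat_lit 125) (.leaf (nat_lit 83)) (.leaf (nat_lit 89))) (.node (nat_lit 127) (.leaf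 (nat_lit 134)) (.leaf (nat_lit 135)))))) (.node (nat_lit 135) (.node (nat_lit 131) (.node (nat_lit 129) (.leaf (nat_lit 136)) (.node (nat_lit 130) (.leaf (nat_lit 137)) (.leaf (nat_lit 67)))) (.node (nat_lit 133) (.node (nat_lit 132) (.leaf (nat_lit 103)) (.leaf (nat_lit 229))) (.node (nat_lit 134) (.leaf (nat_lit 223)) (.leaf (nat_lit 224))))) (.node (nat_lit 138) (.node (nat_lit 136) (.leaf (nat_lit 102)) (.node (nat_lit 137) (.leaf (nat_lit 19)) (.leaf (nat_lit 70)))) (.node (nat_lit 140) (.node (nat_lit 139) (.leaf (nat_lit 158)) (.leaf (nat_lit 159))) (.node (nat_lit 141) (.leaf (nat_lit 217)) (.leaf (nat_lit 218))))))) (.node (nat_lit 156) (.node (nat_lit 149) (.node (nat_lit 145) (.node (nat_lit 143) (.leaf (nat_lit 228)) (.node (nat_lit 144) (.leaf (nat_lit 92)) (.leaf (nat_lit 201)))) (.node (nat_lit 147) (.node (nat_lit 146) (.leaf (nat_lit 97)) (.leaf (nat_lit 195))) (.node (nat_lit 148) (.leaf (nat_lit 181)) (.leaf (nat_lit 182)))))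 (.node (nat_lit 152) (.node (nat_lit 150) (.leaf (nat_lit 160)) (.node (nat_lit 151) (.leaf (nat_lit 161)) (.leaf (nat_lit 14)))) (.node (nat_lit 154) (.node (nat_lit 153) (.leaf (nat_lit 178)) (.leaf (nat_lit 179))) (.node (nat_lit 155) (.leaf (nat_lit 108)) (.leaf (nat_lit 109)))))) (.node (nat_lit 163) (.node (nat_lit 159) (.node (nat_lit 157) (.leaf (nat_lit 110)) (.node (nat_lit 158) (.leaf (nat_lit 111)) (.leaf (nat_lit 7)))) (.node (nat_lit 161) (.node (nat_lit 160) (.leaf (nat_lit 8)) (.leaf (nat_lit 41))) (.node (nat_lit 162) (.leaf (nat_lit 58)) (.leaf (nat_lit 59))))) (.node (nat_lit 167) (.node (nat_lit 165) (.node (nat_lit 164) (.leaf (nat_lit 86)) (.leaf (nat_lit 100))) (.node (nat_lit 166) (.leaf (nat_lit 24)) (.leaf (nat_lit 25)))) (.node (nat_lit 169) (.node (nat_lit 168) (.leaf (nat_lit 65)) (.leaf (nat_lit 74))) (.node (nat_lit 170) (.leaf (nat_lit 75)) (.leaf (nat_lit 106)))))))) (.node (nat_lit 200) (.node (nat_lit 185) (.node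 (nat_lit 178) (.node (nat_lit 174) (.node (nat_lit 172) (.leaf (nat_lit 226)) (.node (nat_lit 173) (.leaf (nat_lit 169)) (.leaf (nat_lit 150)))) (.node (nat_lit 176) (.node (nat_lit 175) (.leaf (nat_lit 203)) (.leaf (nat_lit 151))) (.node (nat_lit 177) (.leaf (nat_lit 152)) (.leaf (nat_lit 166))))) (.node (nat_lit 181) (.node (nat_lit 179) (.leaf (nat_lit 191)) (.node (nat_lit 180) (.leaf (nat_lit 192)) (.leaf (nat_lit 153)))) (.node (nat_lit 183) (.node (nat_lit 182) (.leaf (nat_lit 167)) (.leaf (nat_lit 193))) (.node (nat_lit 184) (.leaf (nat_lit 197)) (.leaf (nat_lit 168)))))) (.node (nat_lit 192) (.node (nat_lit 188) (.node (nat_lit 186) (.leaf (nat_lit 198)) (.node (nat_lit 187) (.leaf (nat_lit 1)) (.leaf (nat_lit 174)))) (.node (nat_lit 190) (.node (nat_lit 189) (.leaf (nat_lit 175)) (.leaf (nat_lit 4))) (.node (nat_lit 191) (.leaf (nat_lit 46)) (.leaf (nat_lit 154))))) (.node (nat_lit 196) (.node (nat_lit 194) (.node (nat_lit 193) (.leaf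 (nat_lit 155)) (.leaf (nat_lit 176))) (.node (nat_lit 195) (.leaf (nat_lit 177)) (.leaf (nat_lit 200)))) (.node (nat_lit 198) (.node (nat_lit 197) (.leaf (nat_lit 9)) (.leaf (nat_lit 57))) (.node (nat_lit 199) (.leaf (nat_lit 156)) (.leaf (nat_lit 157))))))) (.node (nat_lit 214) (.node (nat_lit 207) (.node (nat_lit 203) (.node (nat_lit 201) (.leaf (nat_lit 194)) (.node (nat_lit 202) (.leaf (nat_lit 205)) (.leaf (nat_lit 206)))) (.node (nat_lit 205) (.node (nat_lit 204) (.leaf (nat_lit 26)) (.leaf (nat_lit 73))) (.node (nat_lit 206) (.leaf (nat_lit 207)) (.leaf (nat_lit 208))))) (.node (nat_lit 210) (.node (nat_lit 208) (.leaf (nat_lit 210)) (.node (nat_lit 209) (.leaf (nat_lit 211)) (.leaf (nat_lit 225)))) (.node (nat_lit 212) (.node (nat_lit 211) (.leaf (nat_lit 212)) (.leaf (nat_lit 213))) (.node (nat_lit 213) (.leaf (nat_lit 15)) (.leaf (nat_lit 16)))))) (.node (nat_lit 221) (.node (nat_lit 217) (.node (nat_lit 215) (.leaf (nat_lit 119)) (.node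 (nat_lit 216) (.leaf (nat_lit 170)) (.leaf (nat_lit 188)))) (.node (nat_lit 219) (.node (nat_lit 218) (.leaf (nat_lit 189)) (.leaf (nat_lit 31))) (.node (nat_lit 220) (.leaf (nat_lit 32)) (.leaf (nat_lit 34))))) (.node (nat_lit 225) (.node (nat_lit 223) (.node (nat_lit 222) (.leaf (nat_lit 172)) (.leaf (nat_lit 180))) (.node (nat_lit 224) (.leaf (nat_lit 190)) (.leaf (nat_lit 214)))) (.node (nat_lit 227) (.node (nat_lit 226) (.leaf (nat_lit 221)) (.leaf (nat_lit 222))) (.node (nat_lit 228) (.leaf (nat_lit 209)) (.leaf (nat_lit 227))))))))))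

noncomputable def ord (m : ℕ) : ℕ := ordT.get m

/-- the codes of the entries `b` are the elements of `a` -/
noncomputable def eqL (a : List ℕ) : List ℕ → Bool :=
  @List.rec ℕ (fun _ => List ℕ → Bool) (fun _ => true)
    (fun y _ ih b => @List.rec ℕ (fun _ => Bool) false (fun e tl _ => br (Nat.beq y (cdE e)) (ih tl) false) b) a

theorem eqL_spec {a b : List ℕ} (h : eqL a b = true) {y : ℕ} (hy : y ∈ a) : ∃ e ∈ b, cdE e = y := by
  induction a generalizing b with
  | nil => exact absurd hy (by simp)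
  | cons x a ih =>
    cases b with
    | nil => exact absurd h (by show ¬ (false = true); simp)
    | cons e tl =>
      have h1 : br (Nat.beq x (cdE e)) (eqL a tl) false = true := h
      obtain ⟨h2, h3⟩ := br_and h1
      rcases List.mem_cons.1 hy with hy | hy
      · exact ⟨e, by simp, by rw [hy]; exact (Nat.eq_of_beq_eq_true h2).symm⟩
      · obtain ⟨e', h4, h5⟩ := ih h3 hy
        exact ⟨e', List.mem_cons_of_mem _ h4, h5⟩

/-- the two tables agree -/
noncomputable def lnk (k : ℕ) : Bool :=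
  @Nat.rec (fun _ => Bool) true (fun i ih => br (br (Nat.beq (H820.rep.getD (ord i) 0) (rep i))
    (br (eqL (H820.suc.getD (ord i) []) (suc i)) (Nat.ble (Nat.succ (ord i)) 230) false) false) ih false) k

theorem lnk_spec {k : ℕ} (h : lnk k = true) : ∀ i < k, H820.rep.getD (ord i) 0 = rep i ∧
    eqL (H820.suc.getD (ord i) []) (suc i) = true ∧ ord i < 230 := by
  induction k with
  | zero => intro i hi; omega
  | succ k ih =>
    have h1 : br (br (Nat.beq (H820.rep.getD (ord k) 0) (rep k))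
      (br (eqL (H820.suc.getD (ord k) []) (suc k)) (Nat.ble (Nat.succ (ord k)) 230) false) false)
      (lnk k) false = true := h
    obtain ⟨h2, h3⟩ := br_and h1
    obtain ⟨h4, h5⟩ := br_and h2
    obtain ⟨h6, h7⟩ := br_and h5
    intro i hi
    rcases Nat.lt_succ_iff_lt_or_eq.1 hi with h8 | h8
    · exact ih h3 i h8
    · subst h8
      exact ⟨Nat.eq_of_beq_eq_true h4, h6, Nat.le_of_ble_eq_true h7⟩

theorem lnk_all : lnk 230 = true := by decide +kernel

/-- **completeness of the table** -/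
theorem comp : ∀ m < 230, ∀ s t : StZ, EvZ s t → Cd (rep m) s → ∃ e ∈ suc m, Cd (cdE e) t := by
  intro m hm s t hst hs
  obtain ⟨h1, h2, h3⟩ := lnk_spec lnk_all m hm
  obtain ⟨y, hy, hyt⟩ := H820.suc_complete (ord m) h3 s t hst (by rw [h1]; exact hs)
  obtain ⟨e, he, hey⟩ := eqL_spec h2 hy
  exact ⟨e, he, by rw [hey]; exact hyt⟩

end Vale.Agent.P032.H61
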