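import Vale.Agent.P032W.H61.Rep
import Vale.Agent.P032W.H892.SixTop

/-!
# P032: the six-fold events between recurrent classes (kernel check, generated)
-/

namespace Vale.Agent.P032.H61

open Vale.Agent.P032.H892

/-- letters before the event number `n` -/
def lbT : Dt ℕ := (.node (nat_lit 7) (.node (nat_lit 3) (.node (nat_lit 1) (.node (nat_lit 0) (.leaf (nat_lit 673439456968454046477080593665)) (.leaf (nat_lit 673440665857380172959373067265))) (.node (nat_lit 2) (.leaf (nat_lit 356526806911396696103173227009)) (.leaf (nat_lit 673440061429058010782722687233)))) (.node (nat_lit 5) (.node (nat_lit 4) (.leaf (nat_lit 673440061429058081151198429441)) (.leaf (nat_lit 356527411372000660408546886145))) (.node (nat_lit 6) (.leaf (nat_lit 356527411372000730777022628353)) (.leaf (nat_lit 356527411372000730777022628353))))) (.node (nat_lit 11) (.node (nat_lit 9) (.node (nat_lit 8) (.leaf (nat_lit 831895781994676949023698977025))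 (.leaf (nat_lit 356527411336260230105176474113))) (.node (nat_lit 10) (.leaf (nat_lit 356527411336260230105176474113)) (.leaf (nat_lit 356527411336260230105176474113)))) (.node (nat_lit 13) (.node (nat_lit 12) (.leaf (nat_lit 356527411336260230105176474113)) (.leaf (nat_lit 356527411336260230105176474113))) (.node (nat_lit 14) (.leaf (nat_lit 198070784112017147534728757505)) (.leaf (nat_lit 198070784112017147534728757505))))))

/-- letters after the event number `n` -/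
def laT : Dt ℕ := (.node (nat_lit 7) (.node (nat_lit 3) (.node (nat_lit 1) (.node (nat_lit 0) (.leaf (nat_lit 178263705704447142447703916832)) (.leaf (nat_lit 178263705704447142447703916832))) (.node (nat_lit 2) (.leaf (nat_lit 336720030732975817634657600160)) (.leaf (nat_lit 99035845421637673327215771936)))) (.node (nat_lit 5) (.node (nat_lit 4) (.leaf (nat_lit 99035845421637708511453643040)) (.leaf (nat_lit 415948495478695023701391573024))) (.node (nat_lit 6) (.leaf (nat_lit 415947891015785251571042091168)) (.leaf (nat_lit 415948495478695058885629444128))))) (.node (nat_lit 11) (.node (nat_lit 9) (.node (nat_lit 8) (.leaf (nat_lit 178263705704447142447703916832)) (.leaf (nat_lit 19816749833726587698805998240))) (.node (nat_lit 10) (.leaf (nat_lit 336719728484227161777005396640)) (.leaf (nat_lit 336720332928690225018151633440)))) (.node (nat_lit 13) (.node (nat_lit 12) (.leaf (nat_lit 178263705704447142447703916832))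 (.leaf (nat_lit 99044912346838038972115189920))) (.node (nat_lit 14) (.leaf (nat_lit 336720332928690225018151633440)) (.leaf (nat_lit 178263705704447142447703916832))))))

/-- letter bits -/
def ML : ℕ := 5069383799038148820212723224575

/-- certificates -/
def ceT : Dt (List ℕ) := (.node (nat_lit 200) (.node (nat_lit 186) (.node (nat_lit 179) (.node (nat_lit 175) (.node (nat_lit 173) (.leaf [(nat_lit 0), (nat_lit 0), (nat_lit 0), (nat_lit 0), (nat_lit 0), (nat_lit 0), (nat_lit 0), (nat_lit 0), (nat_lit 0), (nat_lit 0), (nat_lit 0), (nat_lit 23245584), (nat_lit 0), (nat_lit 0), (nat_lit 21255778), (nat_lit 19051280), (nat_lit 21148432), (nat_lit 25342736), (nat_lit 27439888), (nat_lit 19466956), (nat_lit 21564108), (nat_lit 19158626)]) (.node (nat_lit 174) (.leaf [(nat_lit 0), (nat_lit 0), (nat_lit 0), (nat_lit 0), (nat_lit 0), (nat_lit 0), (nat_lit 0), (nat_lit 0), (nat_lit 0), (nat_lit 0), (nat_lit 0), (nat_lit 0),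 (nat_lit 23245584), (nat_lit 0), (nat_lit 0), (nat_lit 21255778), (nat_lit 21564108), (nat_lit 19158626), (nat_lit 25342736)]) (.leaf [(nat_lit 0), (nat_lit 31562512), (nat_lit 31562512), (nat_lit 31562512), (nat_lit 31562512), (nat_lit 31562512), (nat_lit 31562512), (nat_lit 31562512), (nat_lit 31562512), (nat_lit 31562512), (nat_lit 31562512), (nat_lit 31562512), (nat_lit 31562512), (nat_lit 31562512), (nat_lit 31562512), (nat_lit 31562512), (nat_lit 31562512), (nat_lit 31562512), (nat_lit 31562512), (nat_lit 31562512), (nat_lit 31562512), (nat_lit 31562512), (nat_lit 31562512), (nat_lit 31562512), (nat_lit 31562512), (nat_lit 31562512), (nat_lit 31562512), (nat_lit 31562512), (nat_lit 31562512), (nat_lit 31562512), (nat_lit 31562512), (nat_lit 31562512), (nat_lit 31562512), (nat_lit 31562512), (nat_lit 31562512), (nat_lit 31562512), (nat_lit 31562512), (nat_lit 31562512), (nat_lit 31562512), (nat_lit 31562512), (nat_lit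 31562512), (nat_lit 31562512), (nat_lit 31562512), (nat_lit 31562512), (nat_lit 31562512), (nat_lit 31562512), (nat_lit 31562512), (nat_lit 31562512), (nat_lit 31562512), (nat_lit 31562512), (nat_lit 31562512), (nat_lit 31562512), (nat_lit 31562512), (nat_lit 31562512), (nat_lit 31562512), (nat_lit 31562512), (nat_lit 31562512), (nat_lit 31562512), (nat_lit 31562512), (nat_lit 31562512), (nat_lit 31562512), (nat_lit 31562512), (nat_lit 31562512), (nat_lit 31562512), (nat_lit 31562512), (nat_lit 0), (nat_lit 29465360)]))) (.node (nat_lit 177) (.node (nat_lit 176) (.leaf [(nat_lit 0), (nat_lit 0), (nat_lit 0), (nat_lit 0), (nat_lit 0), (nat_lit 0), (nat_lit 0), (nat_lit 0), (nat_lit 0), (nat_lit 0), (nat_lit 0), (nat_lit 0), (nat_lit 0), (nat_lit 0), (nat_lit 23245584), (nat_lit 0), (nat_lit 0), (nat_lit 21564108), (nat_lit 25342736)]) (.leaf [(nat_lit 0), (nat_lit 0), (nat_lit 0), (nat_lit 0), (nat_lit 0), (nat_lit 0),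 (nat_lit 0), (nat_lit 0), (nat_lit 0), (nat_lit 0), (nat_lit 0), (nat_lit 0), (nat_lit 0), (nat_lit 0), (nat_lit 23245584), (nat_lit 0), (nat_lit 0), (nat_lit 25342736), (nat_lit 21564108)])) (.node (nat_lit 178) (.leaf [(nat_lit 0), (nat_lit 0), (nat_lit 0), (nat_lit 0), (nat_lit 0), (nat_lit 0), (nat_lit 0), (nat_lit 0), (nat_lit 0), (nat_lit 0), (nat_lit 0), (nat_lit 0), (nat_lit 0), (nat_lit 0), (nat_lit 23245584), (nat_lit 0), (nat_lit 0), (nat_lit 21255778), (nat_lit 25342736), (nat_lit 21564108), (nat_lit 19158626)]) (.leaf [(nat_lit 0), (nat_lit 0), (nat_lit 0), (nat_lit 0), (nat_lit 0), (nat_lit 0), (nat_lit 0), (nat_lit 0), (nat_lit 0), (nat_lit 0), (nat_lit 0), (nat_lit 0), (nat_lit 0), (nat_lit 0), (nat_lit 0), (nat_lit 0), (nat_lit 0), (nat_lit 0), (nat_lit 23245584), (nat_lit 0), (nat_lit 0), (nat_lit 25342736)])))) (.node (nat_lit 182) (.node (nat_lit 180) (.leaf [(nat_lit 0), (nat_lit 0), (nat_lit 0),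 (nat_lit 0), (nat_lit 0), (nat_lit 0), (nat_lit 0), (nat_lit 0), (nat_lit 0), (nat_lit 0), (nat_lit 0), (nat_lit 0), (nat_lit 0), (nat_lit 0), (nat_lit 0), (nat_lit 0), (nat_lit 0), (nat_lit 0), (nat_lit 23245584), (nat_lit 0), (nat_lit 0), (nat_lit 25342736)]) (.node (nat_lit 181) (.leaf [(nat_lit 0), (nat_lit 0), (nat_lit 0), (nat_lit 0), (nat_lit 0), (nat_lit 0), (nat_lit 0), (nat_lit 0), (nat_lit 0), (nat_lit 0), (nat_lit 0), (nat_lit 0), (nat_lit 0), (nat_lit 0), (nat_lit 0), (nat_lit 0), (nat_lit 0), (nat_lit 0), (nat_lit 23245584), (nat_lit 0), (nat_lit 0), (nat_lit 25342736), (nat_lit 21564108)]) (.leaf [(nat_lit 0), (nat_lit 0), (nat_lit 0), (nat_lit 0), (nat_lit 0), (nat_lit 0), (nat_lit 0), (nat_lit 0), (nat_lit 0), (nat_lit 0), (nat_lit 0), (nat_lit 0), (nat_lit 0), (nat_lit 0), (nat_lit 0), (nat_lit 0), (nat_lit 0), (nat_lit 0), (nat_lit 23245584), (nat_lit 0), (nat_lit 0), (nat_lit 25342736), (nat_lit 21564108)])))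 (.node (nat_lit 184) (.node (nat_lit 183) (.leaf [(nat_lit 0), (nat_lit 0), (nat_lit 0), (nat_lit 0), (nat_lit 0), (nat_lit 0), (nat_lit 0), (nat_lit 0), (nat_lit 0), (nat_lit 0), (nat_lit 0), (nat_lit 0), (nat_lit 0), (nat_lit 0), (nat_lit 0), (nat_lit 0), (nat_lit 0), (nat_lit 0), (nat_lit 0), (nat_lit 0), (nat_lit 0), (nat_lit 0), (nat_lit 0), (nat_lit 0), (nat_lit 0), (nat_lit 0), (nat_lit 23245584), (nat_lit 0), (nat_lit 0), (nat_lit 25342736)]) (.leaf [(nat_lit 0), (nat_lit 0), (nat_lit 0), (nat_lit 0), (nat_lit 0), (nat_lit 0), (nat_lit 0), (nat_lit 0), (nat_lit 0), (nat_lit 0), (nat_lit 0), (nat_lit 0), (nat_lit 0), (nat_lit 0), (nat_lit 0), (nat_lit 0), (nat_lit 0), (nat_lit 0), (nat_lit 0), (nat_lit 0), (nat_lit 0), (nat_lit 0), (nat_lit 0), (nat_lit 0), (nat_lit 0), (nat_lit 0), (nat_lit 23245584), (nat_lit 0), (nat_lit 0), (nat_lit 25342736)])) (.node (nat_lit 185) (.leaf [(nat_lit 0), (nat_lit 0), (nat_lit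 0), (nat_lit 0), (nat_lit 0), (nat_lit 0), (nat_lit 0), (nat_lit 0), (nat_lit 0), (nat_lit 0), (nat_lit 0), (nat_lit 0), (nat_lit 0), (nat_lit 0), (nat_lit 0), (nat_lit 0), (nat_lit 0), (nat_lit 0), (nat_lit 0), (nat_lit 0), (nat_lit 0), (nat_lit 0), (nat_lit 0), (nat_lit 0), (nat_lit 0), (nat_lit 0), (nat_lit 23245584), (nat_lit 0), (nat_lit 0), (nat_lit 25342736), (nat_lit 21564108)]) (.leaf [(nat_lit 0), (nat_lit 0), (nat_lit 0), (nat_lit 0), (nat_lit 0), (nat_lit 0), (nat_lit 0), (nat_lit 0), (nat_lit 0), (nat_lit 0), (nat_lit 0), (nat_lit 0), (nat_lit 0), (nat_lit 0), (nat_lit 0), (nat_lit 0), (nat_lit 0), (nat_lit 0), (nat_lit 0), (nat_lit 0), (nat_lit 0), (nat_lit 0), (nat_lit 0), (nat_lit 0), (nat_lit 0), (nat_lit 0), (nat_lit 0), (nat_lit 0), (nat_lit 0), (nat_lit 0), (nat_lit 0), (nat_lit 0), (nat_lit 0), (nat_lit 0), (nat_lit 0), (nat_lit 0), (nat_lit 0), (nat_lit 0), (nat_lit 0), (nat_lit 0), (nat_lit 0),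 (nat_lit 0), (nat_lit 23245584), (nat_lit 0), (nat_lit 0), (nat_lit 25342736)]))))) (.node (nat_lit 193) (.node (nat_lit 189) (.node (nat_lit 187) (.leaf [(nat_lit 0), (nat_lit 0), (nat_lit 0), (nat_lit 0), (nat_lit 0), (nat_lit 0), (nat_lit 0), (nat_lit 0), (nat_lit 0), (nat_lit 0)]) (.node (nat_lit 188) (.leaf [(nat_lit 0), (nat_lit 12728912), (nat_lit 0), (nat_lit 0), (nat_lit 0), (nat_lit 0), (nat_lit 0), (nat_lit 0), (nat_lit 14826064), (nat_lit 0), (nat_lit 14826064), (nat_lit 0), (nat_lit 0)]) (.leaf [(nat_lit 0), (nat_lit 0), (nat_lit 0), (nat_lit 0), (nat_lit 0), (nat_lit 0), (nat_lit 10631760)]))) (.node (nat_lit 191) (.node (nat_lit 190) (.leaf [(nat_lit 0), (nat_lit 0), (nat_lit 0), (nat_lit 0), (nat_lit 0), (nat_lit 0), (nat_lit 0), (nat_lit 0), (nat_lit 0), (nat_lit 0), (nat_lit 0), (nat_lit 0)]) (.leaf [(nat_lit 0), (nat_lit 0), (nat_lit 0), (nat_lit 0), (nat_lit 0), (nat_lit 0), (nat_lit 0)])) (.node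 (nat_lit 192) (.leaf [(nat_lit 0), (nat_lit 0), (nat_lit 0), (nat_lit 0), (nat_lit 0), (nat_lit 0), (nat_lit 0), (nat_lit 0), (nat_lit 0), (nat_lit 0), (nat_lit 0), (nat_lit 14826064), (nat_lit 0)]) (.leaf [(nat_lit 0), (nat_lit 0), (nat_lit 0), (nat_lit 0), (nat_lit 0), (nat_lit 0), (nat_lit 0), (nat_lit 0), (nat_lit 0), (nat_lit 0), (nat_lit 0), (nat_lit 0), (nat_lit 0), (nat_lit 10631760)])))) (.node (nat_lit 196) (.node (nat_lit 194) (.leaf [(nat_lit 0), (nat_lit 0), (nat_lit 0), (nat_lit 0), (nat_lit 0), (nat_lit 0), (nat_lit 0), (nat_lit 0), (nat_lit 0), (nat_lit 4347472), (nat_lit 0)]) (.node (nat_lit 195) (.leaf [(nat_lit 0), (nat_lit 0), (nat_lit 0), (nat_lit 0), (nat_lit 0), (nat_lit 0), (nat_lit 0), (nat_lit 0), (nat_lit 0), (nat_lit 0), (nat_lit 0)]) (.leaf [(nat_lit 0), (nat_lit 0), (nat_lit 0), (nat_lit 0), (nat_lit 0), (nat_lit 0), (nat_lit 0), (nat_lit 0), (nat_lit 0)]))) (.node (nat_lit 198) (.node (nat_lit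 197) (.leaf [(nat_lit 0), (nat_lit 0), (nat_lit 0), (nat_lit 0), (nat_lit 0), (nat_lit 0), (nat_lit 0), (nat_lit 0), (nat_lit 0), (nat_lit 0), (nat_lit 0), (nat_lit 0), (nat_lit 0), (nat_lit 0), (nat_lit 0), (nat_lit 0), (nat_lit 0), (nat_lit 0)]) (.leaf [(nat_lit 0), (nat_lit 0), (nat_lit 0), (nat_lit 0), (nat_lit 0), (nat_lit 0), (nat_lit 0), (nat_lit 0), (nat_lit 0), (nat_lit 0), (nat_lit 0), (nat_lit 0), (nat_lit 0), (nat_lit 0)])) (.node (nat_lit 199) (.leaf [(nat_lit 0), (nat_lit 0), (nat_lit 0), (nat_lit 0), (nat_lit 0), (nat_lit 0), (nat_lit 0), (nat_lit 0), (nat_lit 0), (nat_lit 0), (nat_lit 0), (nat_lit 0), (nat_lit 0), (nat_lit 0), (nat_lit 0), (nat_lit 0), (nat_lit 0), (nat_lit 0), (nat_lit 0), (nat_lit 0), (nat_lit 0)]) (.leaf [(nat_lit 0), (nat_lit 0), (nat_lit 0), (nat_lit 0), (nat_lit 0), (nat_lit 0), (nat_lit 0), (nat_lit 0), (nat_lit 0), (nat_lit 0), (nat_lit 0), (nat_lit 0), (nat_lit 0), (nat_lit 0),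 (nat_lit 0), (nat_lit 0), (nat_lit 0), (nat_lit 0), (nat_lit 0), (nat_lit 0), (nat_lit 0), (nat_lit 0)])))))) (.node (nat_lit 214) (.node (nat_lit 207) (.node (nat_lit 203) (.node (nat_lit 201) (.leaf [(nat_lit 0), (nat_lit 0), (nat_lit 0), (nat_lit 0), (nat_lit 0), (nat_lit 0), (nat_lit 0), (nat_lit 0), (nat_lit 0), (nat_lit 0), (nat_lit 0), (nat_lit 0), (nat_lit 0), (nat_lit 0), (nat_lit 0), (nat_lit 0), (nat_lit 0), (nat_lit 0), (nat_lit 0), (nat_lit 0), (nat_lit 0)]) (.node (nat_lit 202) (.leaf [(nat_lit 0), (nat_lit 0), (nat_lit 0), (nat_lit 0), (nat_lit 0), (nat_lit 0), (nat_lit 0), (nat_lit 0), (nat_lit 0), (nat_lit 0), (nat_lit 0), (nat_lit 0), (nat_lit 0), (nat_lit 0), (nat_lit 0), (nat_lit 0), (nat_lit 0), (nat_lit 0), (nat_lit 0), (nat_lit 0), (nat_lit 0), (nat_lit 0), (nat_lit 0)]) (.leaf [(nat_lit 0), (nat_lit 0), (nat_lit 0), (nat_lit 0), (nat_lit 0), (nat_lit 0), (nat_lit 0), (nat_lit 0), (nat_lit 0),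 (nat_lit 0), (nat_lit 0), (nat_lit 0), (nat_lit 0), (nat_lit 0), (nat_lit 0), (nat_lit 0), (nat_lit 0), (nat_lit 0), (nat_lit 0), (nat_lit 0), (nat_lit 0), (nat_lit 0), (nat_lit 0), (nat_lit 0), (nat_lit 0)]))) (.node (nat_lit 205) (.node (nat_lit 204) (.leaf [(nat_lit 0), (nat_lit 0), (nat_lit 0), (nat_lit 0), (nat_lit 0), (nat_lit 0), (nat_lit 0), (nat_lit 0), (nat_lit 0), (nat_lit 0), (nat_lit 0), (nat_lit 0), (nat_lit 0), (nat_lit 0), (nat_lit 0), (nat_lit 0), (nat_lit 0), (nat_lit 0), (nat_lit 0), (nat_lit 0), (nat_lit 0), (nat_lit 0), (nat_lit 0), (nat_lit 0), (nat_lit 0), (nat_lit 0), (nat_lit 0), (nat_lit 0), (nat_lit 0), (nat_lit 0), (nat_lit 0), (nat_lit 0)]) (.leaf [(nat_lit 0), (nat_lit 0), (nat_lit 0), (nat_lit 0), (nat_lit 0), (nat_lit 0), (nat_lit 0), (nat_lit 0), (nat_lit 0), (nat_lit 0), (nat_lit 0), (nat_lit 0), (nat_lit 0), (nat_lit 0), (nat_lit 0), (nat_lit 0), (nat_lit 0), (nat_lit 0), (nat_lit 0),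 (nat_lit 0), (nat_lit 0), (nat_lit 0), (nat_lit 0), (nat_lit 0), (nat_lit 0), (nat_lit 0), (nat_lit 0), (nat_lit 0)])) (.node (nat_lit 206) (.leaf [(nat_lit 0), (nat_lit 0), (nat_lit 0), (nat_lit 0), (nat_lit 0), (nat_lit 0), (nat_lit 0), (nat_lit 0), (nat_lit 0), (nat_lit 0), (nat_lit 0), (nat_lit 0), (nat_lit 0), (nat_lit 0), (nat_lit 0), (nat_lit 0), (nat_lit 0), (nat_lit 0), (nat_lit 0), (nat_lit 0), (nat_lit 0), (nat_lit 0), (nat_lit 0), (nat_lit 0), (nat_lit 0), (nat_lit 0), (nat_lit 0), (nat_lit 0), (nat_lit 0), (nat_lit 0), (nat_lit 0), (nat_lit 0), (nat_lit 0), (nat_lit 0), (nat_lit 0), (nat_lit 0), (nat_lit 0), (nat_lit 0), (nat_lit 0), (nat_lit 0), (nat_lit 0), (nat_lit 0)]) (.leaf [(nat_lit 0), (nat_lit 0), (nat_lit 0), (nat_lit 0), (nat_lit 0), (nat_lit 0), (nat_lit 0), (nat_lit 0), (nat_lit 0), (nat_lit 0), (nat_lit 0), (nat_lit 0), (nat_lit 0), (nat_lit 0), (nat_lit 0), (nat_lit 0), (nat_lit 0), (nat_lit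 0), (nat_lit 0), (nat_lit 0), (nat_lit 0), (nat_lit 0), (nat_lit 0), (nat_lit 0), (nat_lit 0), (nat_lit 0), (nat_lit 0), (nat_lit 0), (nat_lit 0), (nat_lit 0), (nat_lit 0), (nat_lit 0), (nat_lit 0), (nat_lit 0), (nat_lit 0), (nat_lit 0), (nat_lit 0), (nat_lit 0), (nat_lit 0), (nat_lit 0), (nat_lit 0), (nat_lit 0)])))) (.node (nat_lit 210) (.node (nat_lit 208) (.leaf [(nat_lit 0), (nat_lit 0), (nat_lit 0), (nat_lit 0), (nat_lit 0), (nat_lit 0), (nat_lit 0), (nat_lit 0), (nat_lit 0), (nat_lit 0), (nat_lit 0), (nat_lit 0), (nat_lit 0), (nat_lit 0), (nat_lit 0), (nat_lit 0), (nat_lit 0), (nat_lit 0), (nat_lit 0), (nat_lit 0), (nat_lit 0), (nat_lit 0), (nat_lit 0), (nat_lit 0), (nat_lit 0), (nat_lit 0), (nat_lit 0), (nat_lit 0), (nat_lit 0), (nat_lit 0), (nat_lit 0), (nat_lit 0), (nat_lit 0), (nat_lit 0), (nat_lit 0), (nat_lit 0), (nat_lit 0), (nat_lit 0), (nat_lit 0), (nat_lit 0), (nat_lit 0), (nat_lit 0), (nat_lit 0), (nat_lit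 0)]) (.node (nat_lit 209) (.leaf [(nat_lit 0), (nat_lit 0), (nat_lit 0), (nat_lit 0), (nat_lit 0), (nat_lit 0), (nat_lit 0), (nat_lit 0), (nat_lit 0), (nat_lit 0), (nat_lit 0), (nat_lit 0), (nat_lit 0), (nat_lit 0), (nat_lit 0), (nat_lit 0), (nat_lit 0), (nat_lit 0), (nat_lit 0), (nat_lit 0), (nat_lit 0), (nat_lit 0), (nat_lit 0), (nat_lit 0), (nat_lit 0), (nat_lit 0), (nat_lit 0), (nat_lit 0), (nat_lit 0), (nat_lit 0), (nat_lit 0), (nat_lit 0), (nat_lit 0), (nat_lit 0), (nat_lit 0), (nat_lit 0), (nat_lit 0), (nat_lit 0), (nat_lit 0), (nat_lit 0), (nat_lit 0), (nat_lit 0), (nat_lit 0), (nat_lit 0), (nat_lit 0), (nat_lit 0), (nat_lit 0), (nat_lit 0)]) (.leaf [(nat_lit 0), (nat_lit 0), (nat_lit 0), (nat_lit 0), (nat_lit 0), (nat_lit 0), (nat_lit 0), (nat_lit 0), (nat_lit 0), (nat_lit 0), (nat_lit 0), (nat_lit 0), (nat_lit 0), (nat_lit 0), (nat_lit 0), (nat_lit 0), (nat_lit 0), (nat_lit 0), (nat_lit 0), (nat_lit 0), (nat_lit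 0), (nat_lit 0), (nat_lit 0), (nat_lit 0), (nat_lit 0), (nat_lit 0), (nat_lit 0), (nat_lit 0), (nat_lit 0), (nat_lit 0), (nat_lit 0), (nat_lit 0), (nat_lit 0), (nat_lit 0), (nat_lit 0), (nat_lit 0), (nat_lit 0), (nat_lit 0), (nat_lit 0), (nat_lit 0), (nat_lit 0), (nat_lit 0)]))) (.node (nat_lit 212) (.node (nat_lit 211) (.leaf [(nat_lit 0), (nat_lit 0), (nat_lit 0), (nat_lit 0), (nat_lit 0), (nat_lit 0), (nat_lit 0), (nat_lit 0), (nat_lit 0), (nat_lit 0), (nat_lit 0), (nat_lit 0), (nat_lit 0), (nat_lit 0), (nat_lit 0), (nat_lit 0), (nat_lit 0), (nat_lit 0), (nat_lit 0), (nat_lit 0), (nat_lit 0), (nat_lit 0), (nat_lit 0), (nat_lit 0), (nat_lit 0), (nat_lit 0), (nat_lit 0), (nat_lit 0), (nat_lit 0), (nat_lit 0), (nat_lit 0), (nat_lit 0), (nat_lit 0), (nat_lit 0), (nat_lit 0), (nat_lit 0), (nat_lit 0), (nat_lit 0), (nat_lit 0), (nat_lit 0), (nat_lit 0), (nat_lit 0), (nat_lit 0), (nat_lit 0), (nat_lit 0), (nat_lit 0), (nat_lit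 0), (nat_lit 0), (nat_lit 0), (nat_lit 0), (nat_lit 0), (nat_lit 0), (nat_lit 0), (nat_lit 0), (nat_lit 0), (nat_lit 0), (nat_lit 0), (nat_lit 0), (nat_lit 0), (nat_lit 0), (nat_lit 0), (nat_lit 0), (nat_lit 0), (nat_lit 0), (nat_lit 0), (nat_lit 0), (nat_lit 0)]) (.leaf [(nat_lit 0), (nat_lit 0), (nat_lit 0), (nat_lit 0), (nat_lit 0), (nat_lit 0), (nat_lit 0), (nat_lit 0), (nat_lit 0), (nat_lit 0), (nat_lit 0), (nat_lit 0), (nat_lit 0), (nat_lit 0), (nat_lit 0), (nat_lit 0), (nat_lit 0), (nat_lit 0), (nat_lit 0), (nat_lit 0), (nat_lit 0), (nat_lit 0), (nat_lit 0), (nat_lit 0), (nat_lit 0), (nat_lit 0), (nat_lit 0), (nat_lit 0), (nat_lit 0), (nat_lit 0), (nat_lit 0), (nat_lit 0), (nat_lit 0), (nat_lit 0), (nat_lit 0), (nat_lit 0), (nat_lit 0), (nat_lit 0), (nat_lit 0), (nat_lit 0), (nat_lit 0), (nat_lit 0), (nat_lit 0), (nat_lit 0), (nat_lit 0), (nat_lit 0), (nat_lit 0), (nat_lit 0), (nat_lit 0), (nat_lit 0), (nat_lit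 0), (nat_lit 0), (nat_lit 0), (nat_lit 0), (nat_lit 0), (nat_lit 0), (nat_lit 0), (nat_lit 0), (nat_lit 0), (nat_lit 0), (nat_lit 0), (nat_lit 0), (nat_lit 0), (nat_lit 0), (nat_lit 0), (nat_lit 0), (nat_lit 0), (nat_lit 0), (nat_lit 0), (nat_lit 0), (nat_lit 0), (nat_lit 0), (nat_lit 0)])) (.node (nat_lit 213) (.leaf [(nat_lit 0), (nat_lit 0), (nat_lit 0), (nat_lit 0), (nat_lit 0), (nat_lit 0), (nat_lit 0)]) (.leaf [(nat_lit 0), (nat_lit 0), (nat_lit 0), (nat_lit 0), (nat_lit 0), (nat_lit 0)]))))) (.node (nat_lit 221) (.node (nat_lit 217) (.node (nat_lit 215) (.leaf [(nat_lit 0), (nat_lit 0), (nat_lit 0), (nat_lit 0), (nat_lit 0), (nat_lit 0), (nat_lit 0), (nat_lit 0)]) (.node (nat_lit 216) (.leaf [(nat_lit 0), (nat_lit 0), (nat_lit 0), (nat_lit 0), (nat_lit 0), (nat_lit 0), (nat_lit 0), (nat_lit 0), (nat_lit 0), (nat_lit 0), (nat_lit 0), (nat_lit 6469712)]) (.leaf [(nat_lit 0), (nat_lit 0), (nat_lit 0), (nat_lit 0),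 (nat_lit 0), (nat_lit 0), (nat_lit 16898128), (nat_lit 16898128), (nat_lit 16898128), (nat_lit 16898128), (nat_lit 16898128), (nat_lit 16898128), (nat_lit 16898128), (nat_lit 16898128), (nat_lit 16898128), (nat_lit 16898128), (nat_lit 16898128), (nat_lit 16898128), (nat_lit 16898128), (nat_lit 16898128), (nat_lit 16898128), (nat_lit 16898128)]))) (.node (nat_lit 219) (.node (nat_lit 218) (.leaf [(nat_lit 0), (nat_lit 0), (nat_lit 0), (nat_lit 0), (nat_lit 0), (nat_lit 0), (nat_lit 0), (nat_lit 0), (nat_lit 0), (nat_lit 9216236), (nat_lit 9216236), (nat_lit 0), (nat_lit 0)]) (.leaf [(nat_lit 0), (nat_lit 0), (nat_lit 0), (nat_lit 0), (nat_lit 0), (nat_lit 0), (nat_lit 0), (nat_lit 0), (nat_lit 0), (nat_lit 0), (nat_lit 0), (nat_lit 0), (nat_lit 0), (nat_lit 0)])) (.node (nat_lit 220) (.leaf [(nat_lit 0), (nat_lit 0), (nat_lit 0), (nat_lit 0), (nat_lit 0), (nat_lit 0), (nat_lit 0), (nat_lit 0), (nat_lit 0), (nat_lit 0),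 (nat_lit 0), (nat_lit 0), (nat_lit 0), (nat_lit 0), (nat_lit 0), (nat_lit 0), (nat_lit 0), (nat_lit 0)]) (.leaf [(nat_lit 0), (nat_lit 0), (nat_lit 0), (nat_lit 0), (nat_lit 0), (nat_lit 0), (nat_lit 0), (nat_lit 0), (nat_lit 0), (nat_lit 0), (nat_lit 0), (nat_lit 0), (nat_lit 0), (nat_lit 0)])))) (.node (nat_lit 225) (.node (nat_lit 223) (.node (nat_lit 222) (.leaf [(nat_lit 0), (nat_lit 0), (nat_lit 0), (nat_lit 0), (nat_lit 0), (nat_lit 0), (nat_lit 0), (nat_lit 0), (nat_lit 0), (nat_lit 0), (nat_lit 0), (nat_lit 0), (nat_lit 0), (nat_lit 0), (nat_lit 0), (nat_lit 0), (nat_lit 0), (nat_lit 0)]) (.leaf [(nat_lit 0), (nat_lit 0), (nat_lit 0), (nat_lit 0), (nat_lit 0), (nat_lit 0), (nat_lit 0), (nat_lit 0), (nat_lit 0), (nat_lit 0), (nat_lit 0), (nat_lit 0), (nat_lit 0), (nat_lit 0)])) (.node (nat_lit 224) (.leaf [(nat_lit 0), (nat_lit 0), (nat_lit 0), (nat_lit 0), (nat_lit 0), (nat_lit 0), (nat_lit 0), (nat_lit 0),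 (nat_lit 0), (nat_lit 0), (nat_lit 0), (nat_lit 0)]) (.leaf [(nat_lit 0), (nat_lit 0), (nat_lit 0), (nat_lit 0), (nat_lit 0), (nat_lit 0), (nat_lit 0), (nat_lit 0), (nat_lit 0), (nat_lit 0), (nat_lit 0), (nat_lit 0), (nat_lit 0), (nat_lit 0), (nat_lit 0), (nat_lit 0), (nat_lit 0), (nat_lit 0), (nat_lit 0), (nat_lit 0), (nat_lit 0), (nat_lit 0), (nat_lit 0), (nat_lit 0), (nat_lit 0), (nat_lit 0), (nat_lit 0), (nat_lit 0), (nat_lit 0), (nat_lit 0)]))) (.node (nat_lit 227) (.node (nat_lit 226) (.leaf [(nat_lit 0), (nat_lit 0), (nat_lit 0), (nat_lit 0), (nat_lit 0), (nat_lit 0), (nat_lit 0), (nat_lit 0), (nat_lit 0), (nat_lit 0), (nat_lit 0), (nat_lit 0), (nat_lit 0), (nat_lit 0), (nat_lit 0), (nat_lit 0), (nat_lit 0), (nat_lit 153168), (nat_lit 153168), (nat_lit 153168), (nat_lit 153168), (nat_lit 0), (nat_lit 0)]) (.leaf [(nat_lit 0), (nat_lit 0), (nat_lit 0), (nat_lit 0), (nat_lit 0), (nat_lit 0), (nat_lit 0), (nat_lit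 0), (nat_lit 0), (nat_lit 0), (nat_lit 0), (nat_lit 0), (nat_lit 0), (nat_lit 0), (nat_lit 0), (nat_lit 0), (nat_lit 0), (nat_lit 0), (nat_lit 0), (nat_lit 0), (nat_lit 0), (nat_lit 0)])) (.node (nat_lit 228) (.leaf [(nat_lit 0), (nat_lit 0), (nat_lit 0), (nat_lit 0), (nat_lit 0), (nat_lit 0), (nat_lit 0), (nat_lit 0), (nat_lit 0), (nat_lit 0), (nat_lit 0), (nat_lit 0), (nat_lit 0), (nat_lit 0), (nat_lit 0), (nat_lit 0), (nat_lit 0), (nat_lit 0), (nat_lit 0), (nat_lit 0), (nat_lit 0), (nat_lit 0), (nat_lit 0), (nat_lit 0), (nat_lit 0), (nat_lit 0), (nat_lit 0), (nat_lit 0), (nat_lit 0), (nat_lit 0), (nat_lit 0), (nat_lit 0), (nat_lit 0), (nat_lit 0), (nat_lit 0), (nat_lit 0), (nat_lit 0), (nat_lit 0), (nat_lit 0), (nat_lit 0), (nat_lit 0), (nat_lit 0), (nat_lit 0), (nat_lit 0), (nat_lit 2278992)]) (.leaf [(nat_lit 0), (nat_lit 0), (nat_lit 0), (nat_lit 0), (nat_lit 0), (nat_lit 0), (nat_lit 0), (nat_lit 0), (nat_lit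 0), (nat_lit 0), (nat_lit 0), (nat_lit 0), (nat_lit 0), (nat_lit 0), (nat_lit 0), (nat_lit 0), (nat_lit 0), (nat_lit 0), (nat_lit 0), (nat_lit 0), (nat_lit 0), (nat_lit 0), (nat_lit 0), (nat_lit 0), (nat_lit 0), (nat_lit 0), (nat_lit 0), (nat_lit 0), (nat_lit 0), (nat_lit 0), (nat_lit 0), (nat_lit 0), (nat_lit 0), (nat_lit 0), (nat_lit 0), (nat_lit 0), (nat_lit 0), (nat_lit 0), (nat_lit 0), (nat_lit 0), (nat_lit 0), (nat_lit 0), (nat_lit 0), (nat_lit 0), (nat_lit 0), (nat_lit 0), (nat_lit 0), (nat_lit 0), (nat_lit 0), (nat_lit 0), (nat_lit 0), (nat_lit 0), (nat_lit 0), (nat_lit 0), (nat_lit 0), (nat_lit 0), (nat_lit 0), (nat_lit 0), (nat_lit 0), (nat_lit 0), (nat_lit 0), (nat_lit 0), (nat_lit 0), (nat_lit 0), (nat_lit 0), (nat_lit 0), (nat_lit 0), (nat_lit 0), (nat_lit 0), (nat_lit 0), (nat_lit 0), (nat_lit 0), (nat_lit 0), (nat_lit 0), (nat_lit 0), (nat_lit 0), (nat_lit 0), (nat_lit 0), (nat_lit 23245584), (nat_lit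 25342736), (nat_lit 0), (nat_lit 0)])))))))

/-- the letters of `x`, `y` are those of the event number `q / 2 ^ 21` -/
noncomputable def okQ (x y q : ℕ) : Bool :=
  br (okp (Nat.land q 262143)) (br (Nat.ble 6 (Nat.land (Nat.shiftRight q 18) 7)) false
    (br (Nat.ble (Nat.succ (Nat.shiftRight q 21)) 16)
      (br (Nat.beq (permc (Nat.land q 262143) (lbT.get (Nat.shiftRight q 21)))
          (Nat.land (rotc (Nat.land (Nat.shiftRight q 18) 7) x) ML))
        (Nat.beq (permc (Nat.land q 262143) (laT.get (Nat.shiftRight q 21)))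
          (Nat.land (rotc (Nat.land (Nat.shiftRight q 18) 7) y) ML)) false) false)) false

/-- one after-state -/
noncomputable def six1 (x e q : ℕ) : Bool :=
  br (Nat.ble (mE e) 172) true (br (Nat.beq (mE e) 255) true
    (br (Nat.beq (Nat.land (Nat.land x (cdE e)) MI) 0) (okQ x (cdE e) q) true))

/-- two lists -/
noncomputable def all2 (f : ℕ → ℕ → Bool) (a : List ℕ) : List ℕ → Bool :=
  @List.rec ℕ (fun _ => List ℕ → Bool) (fun _ => true)
    (fun y _ ih b => @List.rec ℕ (fun _ => Bool) false (fun e tl _ => br (f y e) (ih tl) false) b) a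

theorem all2_spec {f : ℕ → ℕ → Bool} {a b : List ℕ} (h : all2 f a b = true) {y : ℕ} (hy : y ∈ a) :
    ∃ q, f y q = true := by
  induction a generalizing b with
  | nil => exact absurd hy (by simp)
  | cons x a ih =>
    cases b with
    | nil => exact absurd h (by show ¬ (false = true); simp)
    | cons e tl =>
      have h1 : br (f x e) (all2 f a tl) false = true := h
      obtain ⟨h2, h3⟩ := br_and h1
      rcases List.mem_cons.1 hy with hy | hy
      · exact ⟨e, by rw [hy]; exact h2⟩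
      · exact ih h3 hy

/-- the classes `173, .., 172 + k` -/
noncomputable def sixA (k : ℕ) : Bool :=
  @Nat.rec (fun _ => Bool) true (fun i ih => br (all2 (six1 (rep (Nat.add 173 i))) (suc (Nat.add 173 i))
    (ceT.get (Nat.add 173 i))) ih false) k

theorem sixA_spec {k : ℕ} (h : sixA k = true) : ∀ i < k, ∀ e ∈ suc (173 + i),
    ∃ q, six1 (rep (173 + i)) e q = true := by
  induction k with
  | zero => intro i hi; omega
  | succ k ih =>
    have h1 : br (all2 (six1 (rep (Nat.add 173 k))) (suc (Nat.add 173 k))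
      (ceT.get (Nat.add 173 k))) (sixA k) false = true := h
    obtain ⟨h2, h3⟩ := br_and h1
    intro i hi e he
    rcases Nat.lt_succ_iff_lt_or_eq.1 hi with h8 | h8
    · exact ih h3 i h8 e he
    · subst h8
      exact all2_spec h2 he

theorem sixA_all : sixA 57 = true := by decide +kernel

/-- the table `lbT`, `laT` -/
theorem lab_spec : ∀ n : Fin 16, ∀ c k : Fin 6,
    (lbT.get n.val).testBit (18 * c.val + k.val) = decide ((tab6 n).1 k = c) ∧
    (lbT.get n.val).testBit (18 * c.val + (6 + k.val)) = decide ((tab6 n).2.1 k = c) ∧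
    (laT.get n.val).testBit (18 * c.val + k.val) = decide ((tab6 n).2.2.1 k = c) ∧
    (laT.get n.val).testBit (18 * c.val + (6 + k.val)) = decide ((tab6 n).2.2.2 k = c) := by
  decide +kernel

theorem ml_bit : ∀ c < 6, ∀ i < 12, ML.testBit (18 * c + i) = true := by decide +kernel

end Vale.Agent.P032.H61
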