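import Vale.Agent.P032W.H61.StaD

/-!
# P032: every static state is in one of the classes
-/

namespace Vale.Agent.P032.H61

open Vale.Agent.P032.H892

/-- the letters assigned before the step `t` -/
def Dn (t : ℕ) (κ : Bool) (k : Fin 6) : Prop := 2 * k.val + (cond κ 1 0) < t

instance (t : ℕ) (κ : Bool) (k : Fin 6) : Decidable (Dn t κ k) := by unfold Dn; infer_instance

theorem Nd.mono {D D' : Bool → Fin 6 → Prop} {x m : ℕ} {s : StZ} (h : Nd D x m s)
    (hD : ∀ κ k, D' κ k → D κ k) : Nd D' x m s :=
  ⟨h.m6, h.lt, h.sL, h.sP, fun κ k hk => h.cL κ k (hD κ k hk), h.cP⟩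

theorem Spec.mono {D D' : Bool → Fin 6 → Prop} {F : ℕ → ℕ → Bool} (h : Spec D' F)
    (hD : ∀ κ k, D' κ k → D κ k) : Spec D F :=
  fun x m s hs hn hF => h x m s hs (hn.mono hD) hF

theorem g12 : Spec (Dn 12) G12 := by
  refine pr_spec ?_
  intro x m s hs hn h
  refine sil_spec st_ok st_lt 6 x m s hs (hn.mono ?_) (by omega) h
  intro κ k _
  have h1 := k.isLt
  cases κ <;> simp only [Dn, cond] <;> omega

theorem g11 : Spec (Dn 11) G11 :=
  pr_spec (stp_spec true 5 (g12.mono (by decide +kernel)) rfl ⟨by decide +kernel, by decide +kernel⟩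
    (by decide +kernel) (by decide +kernel))

theorem g10 : Spec (Dn 10) G10 :=
  pr_spec (stp_spec false 5 (g11.mono (by decide +kernel)) rfl ⟨by decide +kernel, by decide +kernel⟩
    (by decide +kernel) (by decide +kernel))

theorem g9 : Spec (Dn 9) G9 :=
  pr_spec (stp_spec true 4 (g10.mono (by decide +kernel)) rfl ⟨by decide +kernel, by decide +kernel⟩
    (by decide +kernel) (by decide +kernel))

theorem g8 : Spec (Dn 8) G8 :=
  pr_spec (stp_spec false 4 (g9.mono (by decide +kernel)) rfl ⟨by decide +kernel, by decide +kernel⟩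
    (by decide +kernel) (by decide +kernel))

theorem g7 : Spec (Dn 7) G7 :=
  pr_spec (stp_spec true 3 (g8.mono (by decide +kernel)) rfl ⟨by decide +kernel, by decide +kernel⟩
    (by decide +kernel) (by decide +kernel))

theorem g6 : Spec (Dn 6) G6 :=
  pr_spec (stp_spec false 3 (g7.mono (by decide +kernel)) rfl ⟨by decide +kernel, by decide +kernel⟩
    (by decide +kernel) (by decide +kernel))

theorem g5 : Spec (Dn 5) G5 :=
  pr_spec (stp_spec true 2 (g6.mono (by decide +kernel)) rfl ⟨by decide +kernel, by decide +kernel⟩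
    (by decide +kernel) (by decide +kernel))

theorem g4 : Spec (Dn 4) G4 :=
  pr_spec (stp_spec false 2 (g5.mono (by decide +kernel)) rfl ⟨by decide +kernel, by decide +kernel⟩
    (by decide +kernel) (by decide +kernel))

theorem g3 : Spec (Dn 3) G3 :=
  pr_spec (stp_spec true 1 (g4.mono (by decide +kernel)) rfl ⟨by decide +kernel, by decide +kernel⟩
    (by decide +kernel) (by decide +kernel))

theorem g2 : Spec (Dn 2) G2 :=
  pr_spec (stp_spec false 1 (g3.mono (by decide +kernel)) rfl ⟨by decide +kernel, by decide +kernel⟩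
    (by decide +kernel) (by decide +kernel))

theorem g1 : Spec (Dn 1) G1 :=
  pr_spec (stp_spec true 0 (g2.mono (by decide +kernel)) rfl ⟨by decide +kernel, by decide +kernel⟩
    (by decide +kernel) (by decide +kernel))

theorem g0 : Spec (Dn 0) G0 :=
  pr_spec (stp_spec false 0 (g1.mono (by decide +kernel)) rfl ⟨by decide +kernel, by decide +kernel⟩
    (by decide +kernel) (by decide +kernel))

/-- **every static state is in one of the 230 classes** -/
theorem good_of_sta {s : StZ} (hs : StaZ s) : Good s := by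
  refine g0 0 0 s hs ⟨by norm_num, by norm_num, ?_, ?_, ?_, ?_⟩ dfs_ok
  · intro κ c k h; simp at h
  · intro c k h; simp at h
  · intro κ k h; exact absurd h (by unfold Dn; omega)
  · intro c k h; exact absurd h (by omega)

end Vale.Agent.P032.H61
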