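import Vale.Agent.P032W.H61.Rep

/-!
# P032: every static state is in one of the classes

The search assigns the twelve letters one after the other; the colours are named in the order of their first
occurrence (so the search is up to permutations of the colours), together with the sector of the left end of the hull.
-/

namespace Vale.Agent.P032.H61

open Vale.Agent.P032.H892

/-- the letter at `k`: inner (`false`) or outer (`true`) -/
def Lt (κ : Bool) (s : StZ) (k : Fin 6) : Fin 6 := cond κ (s.1 k).2 (s.1 k).1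

/-- offset of the letters -/
def of (κ : Bool) : ℕ := cond κ 6 0

/-- knowledge at a node of the search -/
structure Nd (D : Bool → Fin 6 → Prop) (x m : ℕ) (s : StZ) : Prop where
  m6 : m ≤ 6
  lt : x < 2 ^ (18 * m)
  sL : ∀ (κ : Bool) (c k : Fin 6), x.testBit (18 * c.val + of κ + k.val) = true → Lt κ s k = c
  sP : ∀ c k : Fin 6, x.testBit (18 * c.val + 12 + k.val) = true → s.2.1 c % 6 = (k.val : ℤ)
  cL : ∀ (κ : Bool) (k : Fin 6), D κ k → x.testBit (18 * (Lt κ s k).val + of κ + k.val) = true ∧
    (Lt κ s k).val < m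
  cP : ∀ c k : Fin 6, c.val < m → s.2.1 c % 6 = (k.val : ℤ) → x.testBit (18 * c.val + 12 + k.val) = true

/-- static lifted states -/
def StaZ (s : StZ) : Prop := OkZ s ∧ Stat (toSt6 s)

theorem okIn_dec : ∀ k l : Fin 6, ∀ h : Hu, okIn k h ∧ okIn l h → True := fun _ _ _ _ => trivial

theorem StaZ.perm {s : StZ} (h : StaZ s) (σ : Equiv.Perm (Fin 6)) : StaZ (prmZ σ s) := by
  obtain ⟨h1, h2⟩ := h
  refine ⟨fun c => h1 _, ?_⟩
  rw [toSt6_prmZ]
  refine ⟨fun k => ?_, fun k => ?_, fun k => ?_, fun k => ?_, fun m => ?_⟩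
  · exact fun h3 => h2.two k (σ.injective h3)
  · obtain ⟨a, b, c, d⟩ := h2.sixty k
    exact ⟨fun h3 => a (σ.injective h3), fun h3 => b (σ.injective h3), fun h3 => c (σ.injective h3),
      fun h3 => d (σ.injective h3)⟩
  · have := h2.win_in k
    show okIn k ((toSt6 s).2 (σ.symm (σ ((toSt6 s).1 k).1)))
    rw [Equiv.symm_apply_apply]; exact this
  · have := h2.win_out k
    show okOut k ((toSt6 s).2 (σ.symm (σ ((toSt6 s).1 k).2)))
    rw [Equiv.symm_apply_apply]; exact this
  · obtain ⟨c, hc⟩ := h2.ray m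
    refine ⟨σ c, ?_⟩
    show rayIn m ((toSt6 s).2 (σ.symm (σ c)))
    rw [Equiv.symm_apply_apply]; exact hc

/-- the aim -/
def Good (s : StZ) : Prop := ∃ m < 230, InC (rep m) s

theorem Good.of_perm {s : StZ} {σ : Equiv.Perm (Fin 6)} (h : Good (prmZ σ s)) : Good s := by
  obtain ⟨m, hm, h1⟩ := h
  refine ⟨m, hm, ?_⟩
  have h2 := h1.act σ.symm 0
  have h3 : Act σ.symm 0 (prmZ σ s) = s := by
    have := prm_symm σ.symm s
    rw [Equiv.symm_symm] at this
    exact this
  rwa [h3] at h2

/-- window of a letter -/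
def okW (κ : Bool) (k : Fin 6) (h : Hu) : Prop := cond κ (okOut k h) (okIn k h)

instance (κ : Bool) (k : Fin 6) (h : Hu) : Decidable (okW κ k h) := by
  unfold okW; cases κ <;> simp only [cond] <;> infer_instance

theorem StaZ.win {s : StZ} (h : StaZ s) (κ : Bool) (k : Fin 6) :
    okW κ k ((toSt6 s).2 (Lt κ s k)) := by
  cases κ
  · exact h.2.win_in k
  · exact h.2.win_out k

/-- letters at neighbouring positions are different -/
theorem StaZ.ne {s : StZ} (h : StaZ s) {κ κ' : Bool} {k k' : Fin 6}
    (hk : k' = k ∧ κ' ≠ κ ∨ k' = k + 1 ∨ k = k' + 1) : Lt κ s k ≠ Lt κ' s k' := by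
  rcases hk with ⟨rfl, hκ⟩ | rfl | rfl
  · cases κ <;> cases κ'
    · exact absurd rfl hκ
    · exact h.2.two k'
    · exact (h.2.two k').symm
    · exact absurd rfl hκ
  · obtain ⟨a, b, c, d⟩ := h.2.sixty k
    cases κ <;> cases κ'
    · exact a
    · exact b
    · exact c
    · exact d
  · obtain ⟨a, b, c, d⟩ := h.2.sixty k'
    cases κ <;> cases κ'
    · exact a.symm
    · exact c.symm
    · exact b.symm
    · exact d.symm

/-- set a bit -/
def bset (x n : ℕ) : ℕ := Nat.lor x (Nat.shiftLeft 1 n)

theorem bset_bit (x n i : ℕ) : (bset x n).testBit i = (x.testBit i || decide (n = i)) := by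
  have e : bset x n = x ||| (1 <<< n) := rfl
  rw [e, Nat.testBit_or, Nat.one_shiftLeft, Nat.testBit_two_pow]

theorem bset_lt {x n k : ℕ} (hx : x < 2 ^ k) (hn : n < k) : bset x n < 2 ^ k := by
  have e : bset x n = x ||| (1 <<< n) := rfl
  rw [e, Nat.one_shiftLeft]
  exact Nat.or_lt_two_pow hx (Nat.pow_lt_pow_right (by norm_num) hn)

/-- for all `v < m` -/
def allN (f : ℕ → Bool) (m : ℕ) : Bool := @Nat.rec (fun _ => Bool) true (fun i ih => br (f i) ih false) m

theorem allN_spec {f : ℕ → Bool} {m : ℕ} (h : allN f m = true) : ∀ i < m, f i = true := by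
  induction m with
  | zero => intro i hi; omega
  | succ m ih =>
    have h1 : br (f m) (allN f m) false = true := h
    obtain ⟨h2, h3⟩ := br_and h1
    intro i hi
    rcases Nat.lt_succ_iff_lt_or_eq.1 hi with h4 | h4
    · exact ih h3 i h4
    · subst h4; exact h2

/-- skip nodes which violate the covering condition -/
def pr (F : ℕ → ℕ → Bool) (x m : ℕ) : Bool :=
  br (br (Nat.ble 6 m) (br (stat x) false true) false) true (F x m)

/-- one letter -/
def stp (o nm wm a b c : ℕ) (F : ℕ → ℕ → Bool) (x m : ℕ) : Bool :=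
  br (allN (fun v => br (Nat.beq (Nat.land (Nat.shiftRight x (Nat.mul 18 v)) nm) 0)
      (br (Nat.beq (Nat.land (Nat.shiftRight x (Nat.mul 18 v)) wm) 0) true
        (F (bset x (Nat.add (Nat.mul 18 v) o)) m)) true) m)
    (br (Nat.ble 6 m) true
      (br (F (bset (bset x (Nat.add (Nat.mul 18 m) o)) (Nat.add (Nat.mul 18 m) a)) (Nat.succ m))
      (br (F (bset (bset x (Nat.add (Nat.mul 18 m) o)) (Nat.add (Nat.mul 18 m) b)) (Nat.succ m))
        (F (bset (bset x (Nat.add (Nat.mul 18 m) o)) (Nat.add (Nat.mul 18 m) c)) (Nat.succ m)) false)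
        false)) false

/-- covering condition, with partial knowledge -/
theorem stat_of' {x : ℕ} {s : StZ} (hs : Stat (toSt6 s))
    (hI : ∀ c k : Fin 6, x.testBit (18 * c.val + k.val) = true → (s.1 k).1 = c)
    (hO : ∀ c k : Fin 6, x.testBit (18 * c.val + 6 + k.val) = true → (s.1 k).2 = c)
    (hP : ∀ c k : Fin 6, s.2.1 c % 6 = (k.val : ℤ) → x.testBit (18 * c.val + 12 + k.val) = true) :
    stat x = true := by
  have key : ∀ m : Fin 6, ∃ c : Fin 6, (cvr x).testBit (18 * c.val + m.val) = true := by
    intro m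
    obtain ⟨c, hc⟩ := hs.ray m
    refine ⟨c, ?_⟩
    have hcv := cvr_bit (x := x) c.isLt m.isLt
    simp only at hcv
    rw [hcv]
    set h := (toSt6 s).2 c with hh
    have hp1 : h.1 = m6 (s.2.1 c) := rfl
    have hc' : (m - h.1).val < h.2.val := hc
    have hd := h.2.isLt
    have hpp : ∀ r : ℕ, (m6 (s.2.1 c)).val = r % 6 → x.testBit (18 * c.val + 12 + r % 6) = true := by
      intro r hr
      refine hP c ⟨r % 6, Nat.mod_lt _ (by norm_num)⟩ ?_
      rw [m6_mod]
      exact Fin.ext hr
    have hblk : ∀ k : Fin 6, (k - h.1).val ≤ (m - h.1).val →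
        x.testBit (18 * c.val + k.val) = false ∧ x.testBit (18 * c.val + 6 + (k.val + 3) % 6) = false := by
      intro k hk
      obtain ⟨f1, f2⟩ := fin_blocked h.1 k m h.2 hc' hk
      constructor
      · by_contra hcon
        rw [Bool.not_eq_false] at hcon
        have h1 := hI c k hcon
        have h2 := hs.win_in k
        have h3 : ((toSt6 s).1 k).1 = c := h1
        rw [h3] at h2
        exact f1 h2
      · by_contra hcon
        rw [Bool.not_eq_false] at hcon
        have h0 : (k + 3).val = (k.val + 3) % 6 := by rw [Fin.val_add]; rfl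
        rw [← h0] at hcon
        have h1 := hO c (k + 3) hcon
        have h2 := hs.win_out (k + 3)
        have h3 : ((toSt6 s).1 (k + 3)).2 = c := h1
        rw [h3] at h2
        exact f2 h2
    have hnf : ∀ r : ℕ, (⟨r % 6, Nat.mod_lt _ (by norm_num)⟩ - h.1 : Fin 6).val ≤ (m - h.1).val →
        (!(x.testBit (18 * c.val + r % 6)) && !(x.testBit (18 * c.val + 6 + (r + 3) % 6))) = true := by
      intro r hr
      obtain ⟨a1, a2⟩ := hblk ⟨r % 6, Nat.mod_lt _ (by norm_num)⟩ hr
      simp only at a1 a2
      have e1 : (r % 6 + 3) % 6 = (r + 3) % 6 := by omega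
      rw [e1] at a2
      rw [a1, a2]; rfl
    have hm := m.isLt
    have hml := h.1.isLt
    have hsub : (m - h.1).val = (6 - h.1.val + m.val) % 6 := by rw [Fin.sub_def]
    have hge : ∀ r : ℕ, (⟨r % 6, Nat.mod_lt _ (by norm_num)⟩ - h.1 : Fin 6).val =
        (6 - h.1.val + r % 6) % 6 := fun r => by rw [Fin.sub_def]
    have hpv : (m6 (s.2.1 c)).val = h.1.val := rfl
    have h3 : (m - h.1).val = 0 ∨ (m - h.1).val = 1 ∨ (m - h.1).val = 2 := by omega
    rcases h3 with h3 | h3 | h3
    · have hP := hpp m.val (by omega)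
      have hN := hnf m.val (by rw [hge]; omega)
      rw [hP, hN]; simp
    · have hP := hpp (m.val + 5) (by omega)
      have hN := hnf m.val (by rw [hge]; omega)
      have hN1 := hnf (m.val + 5) (by rw [hge]; omega)
      rw [hP, hN, hN1]
      simp
    · have hP := hpp (m.val + 4) (by omega)
      have hN := hnf m.val (by rw [hge]; omega)
      have hN1 := hnf (m.val + 5) (by rw [hge]; omega)
      have hN2 := hnf (m.val + 4) (by rw [hge]; omega)
      rw [hP, hN, hN1, hN2]
      simp
  show Nat.beq _ 63 = true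
  rw [Nat.beq_eq]
  set v := cvr x with hv
  have e : Nat.land (Nat.lor v (Nat.lor (Nat.shiftRight v 18) (Nat.lor (Nat.shiftRight v 36)
    (Nat.lor (Nat.shiftRight v 54) (Nat.lor (Nat.shiftRight v 72) (Nat.shiftRight v 90)))))) 63 =
    (v ||| (v >>> 18 ||| (v >>> 36 ||| (v >>> 54 ||| (v >>> 72 ||| v >>> 90))))) &&& (2 ^ 6 - 1) := rfl
  rw [e]
  refine Nat.eq_of_testBit_eq fun i => ?_
  have e63 : (63 : ℕ) = 2 ^ 6 - 1 := by norm_num
  rw [e63, Nat.testBit_and, Nat.testBit_two_pow_sub_one]
  by_cases hi : i < 6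
  · obtain ⟨c, hc⟩ := key ⟨i, hi⟩
    simp only at hc
    have : (v ||| (v >>> 18 ||| (v >>> 36 ||| (v >>> 54 ||| (v >>> 72 ||| v >>> 90))))).testBit i = true := by
      simp only [Nat.testBit_or, Nat.testBit_shiftRight, Bool.or_eq_true]
      have hc6 := c.isLt
      have h6 : c.val = 0 ∨ c.val = 1 ∨ c.val = 2 ∨ c.val = 3 ∨ c.val = 4 ∨ c.val = 5 := by omega
      rcases h6 with h | h | h | h | h | h <;> rw [h] at hc
      · left; simpa using hc
      · right; left; simpa using hc
      · right; right; left; simpa using hc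
      · right; right; right; left; simpa using hc
      · right; right; right; right; left; simpa using hc
      · right; right; right; right; right; simpa using hc
    rw [this]; simp [hi]
  · simp [hi]

theorem Nd.stat {D : Bool → Fin 6 → Prop} {x m : ℕ} {s : StZ} (h : Nd D x m s) (hs : StaZ s)
    (hm : 6 ≤ m) : stat x = true := by
  refine stat_of' hs.2 (fun c k hk => ?_) (fun c k hk => ?_) (fun c k hk => ?_)
  · exact h.sL false c k (by simpa [of] using hk)
  · exact h.sL true c k (by simpa [of] using hk)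
  · exact h.cP c k (lt_of_lt_of_le c.isLt hm) hk

/-- specification of a search function -/
def Spec (D : Bool → Fin 6 → Prop) (F : ℕ → ℕ → Bool) : Prop :=
  ∀ x m s, StaZ s → Nd D x m s → F x m = true → Good s

theorem pr_spec {D : Bool → Fin 6 → Prop} {F : ℕ → ℕ → Bool} (hF : Spec D F) : Spec D (pr F) := by
  intro x m s hs hn h
  rcases br_or h with h1 | h1
  · exfalso
    obtain ⟨h2, h3⟩ := br_and h1
    obtain ⟨h4, -⟩ := br_not h3
    rw [hn.stat hs (Nat.le_of_ble_eq_true h2)] at h4
    exact absurd h4 (by simp)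
  · exact hF x m s hs hn h1

theorem of_add (κ κ' : Bool) (k k' : Fin 6) (h : of κ + k.val = of κ' + k'.val) : κ = κ' ∧ k = k' := by
  have h1 := k.isLt
  have h2 := k'.isLt
  cases κ <;> cases κ' <;> simp only [of, cond] at h
  · exact ⟨rfl, Fin.ext (by omega)⟩
  · omega
  · omega
  · exact ⟨rfl, Fin.ext (by omega)⟩

theorem of_lt (κ : Bool) (k : Fin 6) : of κ + k.val < 12 := by
  have h1 := k.isLt
  cases κ <;> simp only [of, cond] <;> omega

theorem stp_spec {D : Bool → Fin 6 → Prop} {F : ℕ → ℕ → Bool} {o nm wm a b c : ℕ} (κ : Bool) (k : Fin 6)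
    (hF : Spec (fun κ' k' => D κ' k' ∨ (κ' = κ ∧ k' = k)) F) (ho : o = of κ + k.val)
    (hnm : nm < 2 ^ 12 ∧ ∀ (κ' : Bool) (k' : Fin 6), nm.testBit (of κ' + k'.val) = true →
      k' = k ∧ κ' ≠ κ ∨ k' = k + 1 ∨ k = k' + 1)
    (hwm : ∀ p : Fin 6, ∀ d : Fin 4, okW κ k (p, d) → wm.testBit (12 + p.val) = true)
    (habc : ∀ p : Fin 6, ∀ d : Fin 4, okW κ k (p, d) → a = 12 + p.val ∨ b = 12 + p.val ∨ c = 12 + p.val) :
    Spec D (stp o nm wm a b c F) := by
  intro x m s hs hn h
  obtain ⟨h1, h2⟩ := br_and h
  set l := Lt κ s k with hl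
  have hwin := hs.win κ k
  rw [← hl] at hwin
  set hu := (toSt6 s).2 l with hhu
  have hpv : hu.1 = m6 (s.2.1 l) := rfl
  have hPl : s.2.1 l % 6 = (hu.1.val : ℤ) := (m6_mod _ _).2 hpv.symm
  by_cases hlm : l.val < m
  · -- an old colour
    have h3 := allN_spec h1 l.val hlm
    have hx6 : ∀ i, (x >>> (18 * l.val)).testBit i = x.testBit (18 * l.val + i) :=
      fun i => Nat.testBit_shiftRight x
    have n1 : Nat.beq (Nat.land (Nat.shiftRight x (Nat.mul 18 l.val)) nm) 0 = true := by
      rw [Nat.beq_eq]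
      refine Nat.eq_of_testBit_eq fun i => ?_
      have e : Nat.land (Nat.shiftRight x (Nat.mul 18 l.val)) nm = (x >>> (18 * l.val)) &&& nm := rfl
      rw [e, Nat.testBit_and, hx6, Nat.zero_testBit]
      by_contra hcon
      rw [Bool.not_eq_false, Bool.and_eq_true] at hcon
      obtain ⟨b1, b2⟩ := hcon
      have hi : i < 12 := by
        by_contra hge
        push Not at hge
        rw [Nat.testBit_lt_two_pow (lt_of_lt_of_le hnm.1 (Nat.pow_le_pow_right (by norm_num) hge))] at b2
        exact absurd b2 (by simp)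
      obtain ⟨κ', k', e2⟩ : ∃ (κ' : Bool) (k' : Fin 6), i = of κ' + k'.val := by
        by_cases h6 : i < 6
        · exact ⟨false, ⟨i, h6⟩, by simp [of]⟩
        · refine ⟨true, ⟨i - 6, by omega⟩, ?_⟩
          show i = 6 + (i - 6)
          omega
      rw [e2] at b1 b2
      have h4 := hn.sL κ' l k' (by rw [add_assoc]; exact b1)
      exact hs.ne (hnm.2 κ' k' b2) (by rw [← hl]; exact h4.symm)
    have n2 : Nat.beq (Nat.land (Nat.shiftRight x (Nat.mul 18 l.val)) wm) 0 = false := by
      by_contra hcon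
      rw [Bool.not_eq_false, Nat.beq_eq] at hcon
      have e : Nat.land (Nat.shiftRight x (Nat.mul 18 l.val)) wm = (x >>> (18 * l.val)) &&& wm := rfl
      have b1 := hn.cP l hu.1 hlm hPl
      have b2 := hwm hu.1 hu.2 hwin
      have b3 : ((x >>> (18 * l.val)) &&& wm).testBit (12 + hu.1.val) = true := by
        rw [Nat.testBit_and, hx6, b2, ← add_assoc, b1]; rfl
      rw [← e, hcon] at b3
      simp at b3
    rw [n1, br_true, n2, br_false] at h3
    refine hF _ m s hs ?_ h3
    have ebit : ∀ i, (bset x (Nat.add (Nat.mul 18 l.val) o)).testBit i =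
        (x.testBit i || decide (18 * l.val + o = i)) := fun i => bset_bit _ _ _
    refine ⟨hn.m6, ?_, ?_, ?_, ?_, ?_⟩
    · refine bset_lt hn.lt ?_
      have := of_lt κ k
      show 18 * l.val + o < 18 * m
      omega
    · intro κ' c' k' hb
      rw [ebit, Bool.or_eq_true, decide_eq_true_eq] at hb
      rcases hb with hb | hb
      · exact hn.sL κ' c' k' hb
      · have q1 := of_lt κ k
        have q2 := of_lt κ' k'
        have q3 : l.val = c'.val := by omega
        have q4 : of κ + k.val = of κ' + k'.val := by omega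
        obtain ⟨q5, q6⟩ := of_add _ _ _ _ q4
        rw [← q5, ← q6, ← hl]
        exact Fin.ext q3
    · intro c' k' hb
      rw [ebit, Bool.or_eq_true, decide_eq_true_eq] at hb
      rcases hb with hb | hb
      · exact hn.sP c' k' hb
      · exfalso
        have q1 := of_lt κ k
        have q2 := k'.isLt
        omega
    · rintro κ' k' (hD | ⟨rfl, rfl⟩)
      · obtain ⟨a1, a2⟩ := hn.cL κ' k' hD
        exact ⟨by rw [ebit, a1]; rfl, a2⟩
      · refine ⟨?_, by rw [← hl]; exact hlm⟩
        rw [ebit, ← hl]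
        have : 18 * l.val + o = 18 * l.val + of κ' + k'.val := by rw [ho, add_assoc]
        rw [this]; simp
    · intro c' k' hc' hp
      rw [ebit, hn.cP c' k' hc' hp]; rfl
  · -- a new colour
    have hm5 : m < 6 := by have := l.isLt; omega
    set σ := Equiv.swap l ⟨m, hm5⟩ with hσ
    have hfix : ∀ c' : Fin 6, c'.val < m → σ c' = c' := by
      intro c' hc'
      refine Equiv.swap_apply_of_ne_of_ne (fun h4 => ?_) (fun h4 => ?_)
      · rw [h4] at hc'; exact hlm hc'
      · rw [h4] at hc'; exact lt_irrefl _ hc'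
    have hsl : σ l = ⟨m, hm5⟩ := Equiv.swap_apply_left _ _
    have hsym : σ.symm = σ := Equiv.symm_swap _ _
    have hsm : σ ⟨m, hm5⟩ = l := Equiv.swap_apply_right _ _
    have hLt : ∀ κ' k', Lt κ' (prmZ σ s) k' = σ (Lt κ' s k') := by
      intro κ' k'; cases κ' <;> rfl
    have hPs : ∀ c', (prmZ σ s).2.1 c' = s.2.1 (σ.symm c') := fun c' => rfl
    -- the three sectors
    have h3 : ∃ q : ℕ, (q = 12 + hu.1.val) ∧
        F (bset (bset x (Nat.add (Nat.mul 18 m) o)) (Nat.add (Nat.mul 18 m) q)) (Nat.succ m) = true := by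
      obtain ⟨-, h4⟩ : Nat.ble 6 m = false ∧ True := by
        cases hb : Nat.ble 6 m
        · exact ⟨rfl, trivial⟩
        · exact absurd (Nat.le_of_ble_eq_true hb) (by omega)
      have h5 : Nat.ble 6 m = false := by
        cases hb : Nat.ble 6 m
        · rfl
        · exact absurd (Nat.le_of_ble_eq_true hb) (by omega)
      rw [h5, br_false] at h2
      obtain ⟨f1, f2⟩ := br_and h2
      obtain ⟨f3, f4⟩ := br_and f2
      rcases habc hu.1 hu.2 hwin with e1 | e1 | e1
      · exact ⟨a, e1, f1⟩
      · exact ⟨b, e1, f3⟩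
      · exact ⟨c, e1, f4⟩
    obtain ⟨q, hq, hFq⟩ := h3
    refine Good.of_perm (σ := σ) ?_
    refine hF _ (Nat.succ m) (prmZ σ s) (hs.perm σ) ?_ hFq
    have ebit : ∀ i, (bset (bset x (Nat.add (Nat.mul 18 m) o)) (Nat.add (Nat.mul 18 m) q)).testBit i =
        ((x.testBit i || decide (18 * m + o = i)) || decide (18 * m + q = i)) := by
      intro i; rw [bset_bit, bset_bit]; rfl
    have hxb : ∀ i, x.testBit i = true → i < 18 * m := by
      intro i hi
      by_contra hcon
      push Not at hcon
      rw [Nat.testBit_lt_two_pow (lt_of_lt_of_le hn.lt (Nat.pow_le_pow_right (by norm_num) hcon))] at hi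
      exact absurd hi (by simp)
    refine ⟨hm5, ?_, ?_, ?_, ?_, ?_⟩
    · have hl' : x < 2 ^ (18 * Nat.succ m) :=
        lt_of_lt_of_le hn.lt (Nat.pow_le_pow_right (by norm_num) (by omega))
      refine bset_lt (bset_lt hl' ?_) ?_
      · have := of_lt κ k
        show 18 * m + o < 18 * (m + 1)
        omega
      · have := hu.1.isLt
        show 18 * m + q < 18 * (m + 1)
        omega
    · intro κ' c' k' hb
      rw [ebit, Bool.or_eq_true, Bool.or_eq_true, decide_eq_true_eq, decide_eq_true_eq] at hb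
      have q2 := of_lt κ' k'
      rw [hLt]
      rcases hb with (hb | hb) | hb
      · have q3 := hxb _ hb
        have q4 : c'.val < m := by omega
        rw [hn.sL κ' c' k' hb, hfix c' q4]
      · have q1 := of_lt κ k
        have q3 : m = c'.val := by omega
        have q4 : of κ + k.val = of κ' + k'.val := by omega
        obtain ⟨q5, q6⟩ := of_add _ _ _ _ q4
        rw [← q5, ← q6, ← hl, hsl]
        exact Fin.ext q3
      · exfalso
        have := hu.1.isLt
        omega
    · intro c' k' hb
      rw [ebit, Bool.or_eq_true, Bool.or_eq_true, decide_eq_true_eq, decide_eq_true_eq] at hb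
      have q2 := k'.isLt
      rw [hPs, hsym]
      rcases hb with (hb | hb) | hb
      · have q3 := hxb _ hb
        have q4 : c'.val < m := by omega
        rw [hfix c' q4]
        exact hn.sP c' k' hb
      · exfalso
        have q1 := of_lt κ k
        omega
      · have q1 := hu.1.isLt
        have q3 : m = c'.val := by omega
        have q4 : c' = ⟨m, hm5⟩ := Fin.ext q3.symm
        rw [q4, hsm, hPl]
        have : hu.1.val = k'.val := by omega
        rw [this]
    · rintro κ' k' (hD | ⟨rfl, rfl⟩)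
      · obtain ⟨a1, a2⟩ := hn.cL κ' k' hD
        rw [hLt, hfix _ a2, ebit, a1]
        exact ⟨rfl, Nat.lt_succ_of_lt a2⟩
      · rw [hLt, ← hl, hsl, ebit]
        refine ⟨?_, Nat.lt_succ_self m⟩
        have : 18 * m + o = 18 * m + of κ' + k'.val := by rw [ho, add_assoc]
        simp [this]
    · intro c' k' hc' hp
      rw [hPs, hsym] at hp
      rw [ebit]
      by_cases hcm : c'.val < m
      · rw [hfix c' hcm] at hp
        rw [hn.cP c' k' hcm hp]; rfl
      · have q4 : c' = ⟨m, hm5⟩ := Fin.ext (by show c'.val = m; omega)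
        rw [q4, hsm, hPl] at hp
        have q5 : hu.1.val = k'.val := by exact_mod_cast hp
        have : 18 * m + q = 18 * c'.val + 12 + k'.val := by rw [q4, hq, q5]; ring
        rw [this]; simp

/-- the silent colours -/
noncomputable def sil (ST : Tr) (r : ℕ) : ℕ → ℕ → Bool :=
  @Nat.rec (fun _ => ℕ → ℕ → Bool) (fun x _ => br (stat x) (memT x ST) true)
    (fun _ ih x m => br (Nat.ble 6 m) (br (stat x) (memT x ST) true)
      (allN (fun q => ih (bset x (Nat.add (Nat.mul 18 m) (Nat.add 12 q))) (Nat.succ m)) 6)) r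

theorem sil_spec {ST : Tr} (hST : allT (okE rep) ST = true) (hSN : allT (fun e => Nat.ble (mE e) 229) ST = true)
    (r : ℕ) : ∀ x m s, StaZ s → Nd (fun _ _ => True) x m s → 6 ≤ m + r → sil ST r x m = true → Good s := by
  have hleaf : ∀ x m s, StaZ s → Nd (fun _ _ => True) x m s → 6 ≤ m → br (stat x) (memT x ST) true = true →
      Good s := by
    intro x m s hs hn hm h
    rw [hn.stat hs hm, br_true] at h
    obtain ⟨e, he, hec⟩ := memT_spec h
    have hm6 : m = 6 := le_antisymm hn.m6 hm
    subst hm6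
    have hcd : Cd x s := by
      refine ⟨hn.lt, fun c k => ⟨⟨fun hb => ?_, fun hc => ?_⟩, ⟨fun hb => ?_, fun hc => ?_⟩,
        ⟨fun hb => hn.sP c k hb, fun hc => hn.cP c k c.isLt hc⟩⟩⟩
      · exact hn.sL false c k (by simpa [of] using hb)
      · have := (hn.cL false k trivial).1
        have e1 : Lt false s k = c := hc
        rw [e1] at this
        simpa [of] using this
      · exact hn.sL true c k (by simpa [of] using hb)
      · have := (hn.cL true k trivial).1
        have e1 : Lt true s k = c := hc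
        rw [e1] at this
        simpa [of] using this
    have h1 := allT_spec hST he
    have h2 := Nat.le_of_ble_eq_true (allT_spec hSN he)
    obtain ⟨q1, q2⟩ := br_and h1
    obtain ⟨q3, q4⟩ := br_not q2
    obtain ⟨ρ, hρ⟩ := okp_spec q1
    have hj : jE e < 6 := by
      by_contra hcon
      push Not at hcon
      rw [Nat.ble_eq_true_of_le hcon] at q3
      exact absurd q3 (by simp)
    have hmE : mE e < 230 := by omega
    refine ⟨mE e, hmE, InC.of_cd hρ hj (tabOk_spec tabOk_all _ hmE).2 (Nat.eq_of_beq_eq_true q4) ?_⟩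
    rw [hec]; exact hcd
  induction r with
  | zero => intro x m s hs hn hm h; exact hleaf x m s hs hn (by omega) h
  | succ r ih =>
    intro x m s hs hn hm h
    have h0 : br (Nat.ble 6 m) (br (stat x) (memT x ST) true)
      (allN (fun q => sil ST r (bset x (Nat.add (Nat.mul 18 m) (Nat.add 12 q))) (Nat.succ m)) 6) = true := h
    by_cases h6 : 6 ≤ m
    · rw [Nat.ble_eq_true_of_le h6, br_true] at h0
      exact hleaf x m s hs hn h6 h0
    · have h5 : Nat.ble 6 m = false := by
        cases hb : Nat.ble 6 m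
        · rfl
        · exact absurd (Nat.le_of_ble_eq_true hb) h6
      rw [h5, br_false] at h0
      have hm5 : m < 6 := by omega
      set p := m6 (s.2.1 ⟨m, hm5⟩) with hp
      have hPl : s.2.1 ⟨m, hm5⟩ % 6 = (p.val : ℤ) := (m6_mod _ _).2 hp.symm
      have h1 := allN_spec h0 p.val p.isLt
      refine ih _ _ s hs ?_ (by omega) h1
      have ebit : ∀ i, (bset x (Nat.add (Nat.mul 18 m) (Nat.add 12 p.val))).testBit i =
          (x.testBit i || decide (18 * m + (12 + p.val) = i)) := fun i => bset_bit _ _ _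
      have hp6 := p.isLt
      refine ⟨hm5, ?_, ?_, ?_, ?_, ?_⟩
      · refine bset_lt (lt_of_lt_of_le hn.lt (Nat.pow_le_pow_right (by norm_num) (by omega))) ?_
        show 18 * m + (12 + p.val) < 18 * (m + 1)
        omega
      · intro κ' c' k' hb
        rw [ebit, Bool.or_eq_true, decide_eq_true_eq] at hb
        rcases hb with hb | hb
        · exact hn.sL κ' c' k' hb
        · exfalso
          have := of_lt κ' k'
          omega
      · intro c' k' hb
        rw [ebit, Bool.or_eq_true, decide_eq_true_eq] at hb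
        rcases hb with hb | hb
        · exact hn.sP c' k' hb
        · have := k'.isLt
          have q3 : m = c'.val := by omega
          have q4 : c' = ⟨m, hm5⟩ := Fin.ext q3.symm
          have q5 : p.val = k'.val := by omega
          rw [q4, hPl, q5]
      · intro κ' k' _
        obtain ⟨a1, a2⟩ := hn.cL κ' k' trivial
        exact ⟨by rw [ebit, a1]; rfl, Nat.lt_succ_of_lt a2⟩
      · intro c' k' hc' hpk
        rw [ebit]
        by_cases hcm : c'.val < m
        · rw [hn.cP c' k' hcm hpk]; rfl
        · have q4 : c' = ⟨m, hm5⟩ := Fin.ext (by show c'.val = m; omega)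
          rw [q4, hPl] at hpk
          have q5 : p.val = k'.val := by exact_mod_cast hpk
          have : 18 * m + (12 + p.val) = 18 * c'.val + 12 + k'.val := by rw [q4, q5]; ring
          rw [this]; simp

end Vale.Agent.P032.H61
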